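import Vale.Agent.P146.H516.Ap1
import Vale.Agent.P146.H412.K8S

/-!
P146, block AP, part 2: the sizes of `H412.K8S` for the amplitude law, from the a-priori package at
the exponent `y` only (no slope and no package at `2 y`).

* `gain_ap1` : `gain ≤ 2 n^(1+s0) y⁶ + 5 (1 + log n)`;
* `Par1` : the standing hypotheses, one package `AP b s0 n y (2 V)` and `η ≤ 1/3`;
* `gn_ev1`, `mom_ev1`, `tail_ev1` : as `gn_ev`, `mom_ev`, `tail_ev`.
-/

open MeasureTheory ProbabilityTheory Filter Topology Set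

namespace Vale.Agent.P146.H516

open Vale.Agent.P157.Lv Vale.Agent.P146.H425 Vale.Agent.P146.H646 Vale.Agent.P146.H196
  Vale.Agent.P146.H475 Vale.Agent.P146.H325 Vale.Agent.P146.H317 Vale.Agent.P146.H615
  Vale.Agent.P146.H418 Vale.Agent.P146.H9 Vale.Agent.P146.H529 Vale.Agent.P146.H347
  Vale.Agent.P146.H412

set_option linter.unusedSectionVars false

/-- **The gain of the amplitude law from the a-priori package at `y` only.** -/
theorem gain_ap1 {n : ℕ} {LB LF : Type} [Fintype LB] [DecidableEq LB] [Fintype LF]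
    [DecidableEq LF] {b : ℝ} {cB : LB → ℝ} {cF : LF → ℝ} {lam s η y V W a s0 : ℝ}
    (hn : 1 ≤ n) (hb : 0 < b) (hB : ∑ l, cB l ^ 2 = 1)
    (hV : V = ∑ l, cF l ^ 2 + s ^ 2) (hV1 : V ≤ 1) (hs : 0 < s) (hlam : 1 ≤ lam) (hη : 0 < η)
    (hη1 : η < 1) (hle : 1 ≤ lam * η) (hy : 0 < y) (hy1 : 2 * y ≤ 1)
    (h : H178.AP b s0 n y W) (hVW : V + 3 * η * s ^ 2 ≤ W) (ha : SG n b y V a) :
    gain (muA (Xs n) lam η (cc n b s a)) 1 y (Sm (LB := LB) (LF := LF) b cB cF s η) ≤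
      2 * ((n : ℝ) ^ (1 + s0) * y ^ 6) + 5 * (1 + Real.log n) := by
  have hn1 : (1 : ℝ) ≤ n := by exact_mod_cast hn
  have hn0 : (0 : ℝ) < n := by linarith
  have hF0 : 0 ≤ ∑ l, cF l ^ 2 := Finset.sum_nonneg fun _ _ => sq_nonneg _
  have hs2 : 0 < s ^ 2 := by positivity
  have hV0 : 0 < V := by rw [hV]; positivity
  have hsV : s ^ 2 ≤ 1 := by linarith
  have hlam0 : 0 < lam := by linarith
  have hc0 := cc_nonneg (s := s) ha hy hV0.le
  have hcn := cc_le (s := s) ha hy (by linarith) hV0 hsV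
  have hc : cc n b s a = 2 * s ^ 2 * (y * (n / (2 * b) * (1 + a)) / y) := cc_eq hy.ne'
  have hp0 : 0 ≤ y * (n / (2 * b) * (1 + a)) := mul_nonneg hy.le (ha.nonneg hy.le hV0.le)
  have h1 := gain_sk (lam := lam) hB hV hs hlam0 hη hη1 hy hy1
    (hle.trans (mul_le_mul_of_nonneg_right (by linarith) hη.le))
    (fun w hw => ha.lphi hy w hw) hp0 hc
    (fun w hw => h.tc w hw.1 (hw.2.trans hVW))
  refine h1.trans ?_
  have e : 2 * (y * ((n : ℝ) ^ (1 + s0) * y ^ 5)) = 2 * ((n : ℝ) ^ (1 + s0) * y ^ 6) := by ring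
  rw [e]
  have h2 : Real.log (8 * η * cc n b s a + 4) ≤ 3 + Real.log n := by
    have h3 : 8 * η * cc n b s a + 4 ≤ 12 * n := by nlinarith
    have h4 : Real.log (8 * η * cc n b s a + 4) ≤ Real.log (12 * n) :=
      Real.log_le_log (by positivity) h3
    rw [Real.log_mul (by norm_num) hn0.ne'] at h4
    have h5 : Real.log 12 ≤ 3 := by
      rw [Real.log_le_iff_le_exp (by norm_num)]
      have := Real.exp_one_gt_d9
      have e3 : Real.exp 3 = Real.exp 1 ^ 3 := by rw [← Real.exp_nat_mul]; norm_num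
      rw [e3]
      have h6 : (2.7 : ℝ) ^ 3 ≤ Real.exp 1 ^ 3 := pow_le_pow_left₀ (by norm_num) (by linarith) 3
      norm_num at h6 ⊢
      linarith
    linarith
  have h7 : Real.log (4 * (lam + cc n b s a) / lam) ≤ 3 + Real.log n := by
    have h3 : 4 * (lam + cc n b s a) / lam ≤ 8 * n := by
      rw [div_le_iff₀ hlam0]
      nlinarith
    have h4 : Real.log (4 * (lam + cc n b s a) / lam) ≤ Real.log (8 * n) :=
      Real.log_le_log (by positivity) h3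
    rw [Real.log_mul (by norm_num) hn0.ne'] at h4
    have h5 : Real.log 8 ≤ 3 := by
      rw [Real.log_le_iff_le_exp (by norm_num)]
      have := Real.exp_one_gt_d9
      have e3 : Real.exp 3 = Real.exp 1 ^ 3 := by rw [← Real.exp_nat_mul]; norm_num
      rw [e3]
      have h6 : (2.7 : ℝ) ^ 3 ≤ Real.exp 1 ^ 3 := pow_le_pow_left₀ (by norm_num) (by linarith) 3
      norm_num at h6 ⊢
      linarith
    linarith
  have hlog : 0 ≤ Real.log n := Real.log_nonneg hn1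
  have h8 : y * (Real.log (4 * (lam + cc n b s a) / lam) + 3) ≤ 1 / 2 * (6 + Real.log n) := by
    have h9 : y * (Real.log (4 * (lam + cc n b s a) / lam) + 3) ≤ y * (6 + Real.log n) :=
      mul_le_mul_of_nonneg_left (by linarith) hy.le
    have h10 : y * (6 + Real.log n) ≤ 1 / 2 * (6 + Real.log n) :=
      mul_le_mul_of_nonneg_right (by linarith) (by linarith)
    linarith
  linarith

/-- the standing hypotheses on the parameters of one amplitude law at `(y, V)`; the a-priori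
package at `y` only -/
structure Par1 (b s0 e : ℝ) (n : ℕ) (vp s lam η y V a : ℝ) : Prop where
  vp0 : 0 ≤ vp
  hV : V = vp + s ^ 2
  V1 : V ≤ 1
  s0' : 0 < s
  lam1 : 1 ≤ lam
  η0 : 0 < η
  η3 : η ≤ 1 / 3
  lamη : 1 ≤ lam * η
  y0 : (n : ℝ) ^ (-(1 / 6) + e) ≤ y
  y1 : 2 * y ≤ 1
  ap : H178.AP b s0 n y (2 * V)
  sg : SG n b y V a

lemma Par1.η1 {b s0 e : ℝ} {n : ℕ} {vp s lam η y V a : ℝ} (h : Par1 b s0 e n vp s lam η y V a) :
    η < 1 := by linarith [h.η3]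

/-- **The gain in canonical form**, uniformly in the shares. -/
theorem gn_ev1 {b e s0 s1 : ℝ} (hb : 0 < b) (he : 0 < e) (hs0 : 0 ≤ s0) (hs : s0 < s1) :
    ∀ᶠ n : ℕ in atTop, ∀ (vp s lam η y V a : ℝ), Par1 b s0 e n vp s lam η y V a →
      ∀ t ∈ Icc (0 : ℝ) 1, ∀ u ∈ Icc (0 : ℝ) 1,
      gn ⟨n, b, vp, s, lam, η, cc n b s a, y⟩ t u ≤ (n : ℝ) ^ (1 + s1) * y ^ 6 := by
  have hd : 0 < s1 - s0 := by linarith
  filter_upwards [H178.ev_pow hd 3, H178.ev_log (show 0 < 6 * e by positivity) 5,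
    eventually_ge_atTop 1] with n g1 g2 g3
  intro vp s lam η y V a h t ht u hu
  have hn1 : (1 : ℝ) ≤ n := by exact_mod_cast g3
  have hn0 : (0 : ℝ) < n := by linarith
  have hy0 : 0 < y := lt_of_lt_of_le (Real.rpow_pos_of_pos hn0 _) h.y0
  have hs2 : 0 < s ^ 2 := by
    have := h.s0'
    positivity
  have hB : ∑ l, H418.cb t l ^ 2 = 1 := sum_cb ht.1 ht.2
  have hF : V = ∑ l, cf vp u l ^ 2 + s ^ 2 := by rw [sum_cf h.vp0 hu.1 hu.2, h.hV]
  have hVW : V + 3 * η * s ^ 2 ≤ 2 * V := by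
    have h1 := mul_le_mul_of_nonneg_right h.η3 hs2.le
    have h2 := h.hV
    have h3 := h.vp0
    linarith
  have h1 := gain_ap1 (LB := Bool) (LF := Bool) (cB := H418.cb t) (cF := cf vp u) g3 hb hB hF
    h.V1 h.s0' h.lam1 h.η0 h.η1 h.lamη hy0 h.y1 h.ap hVW h.sg
  refine (show gn ⟨n, b, vp, s, lam, η, cc n b s a, y⟩ t u ≤ _ from h1).trans ?_
  have h3 : 5 * (1 + Real.log n) ≤ (n : ℝ) ^ (1 + s0) * y ^ 6 := by
    refine g2.trans ?_
    have h6 := ypow g3 h.y0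
    calc (n : ℝ) ^ (6 * e) = (n : ℝ) ^ (1 : ℝ) * (n : ℝ) ^ (-1 + 6 * e) := by
          rw [← Real.rpow_add hn0]
          congr 1
          ring
      _ ≤ (n : ℝ) ^ (1 + s0) * y ^ 6 := by
          have := Real.rpow_le_rpow_of_exponent_le hn1 (show (1 : ℝ) ≤ 1 + s0 by linarith)
          gcongr
  have h4 : (n : ℝ) ^ (1 + s1) = (n : ℝ) ^ (s1 - s0) * (n : ℝ) ^ (1 + s0) := by
    rw [← Real.rpow_add hn0]
    congr 1
    ring
  have h5 : 0 < (n : ℝ) ^ (1 + s0) * y ^ 6 := by positivity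
  rw [h4]
  nlinarith

/-- **Moments of the second moment of the overlap, eventually.** -/
theorem mom_ev1 {b e s0 s1 : ℝ} (hb : 0 < b) (he : 0 < e) (hs0 : 0 ≤ s0) (hs : s0 < s1) :
    ∀ᶠ n : ℕ in atTop, ∀ (vp s lam η y V a : ℝ), Par1 b s0 e n vp s lam η y V a →
      y ^ 2 * b ^ 2 ≤ 4 → ∀ t : ℝ, 0 ≤ t → t < 1 → ∀ u ∈ Icc (0 : ℝ) 1,
      ∀ (S : Finset (Fin n)) (p : ℕ),
      Law.ex' ⟨n, b, vp, s, lam, η, cc n b s a, y⟩ t u
        (fun z => CC ⟨n, b, vp, s, lam, η, cc n b s a, y⟩ S t u z ^ p) ≤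
      Cp p * (4 * ((n : ℝ) ^ s1 * y ^ 4) / (b ^ 2 * (1 - t))) ^ p := by
  filter_upwards [gn_ev1 hb he hs0 hs, eventually_ge_atTop 1] with n g1 g2
  intro vp s lam η y V a h hyb t ht0 ht1 u hu S p
  have hn1 : (1 : ℝ) ≤ n := by exact_mod_cast g2
  have hn0 : (0 : ℝ) < n := by linarith
  have hy0 : 0 < y := lt_of_lt_of_le (Real.rpow_pos_of_pos hn0 _) h.y0
  have hg := g1 vp s lam η y V a h t ⟨ht0, ht1.le⟩ u hu
  have h1 : 1 ≤ (n : ℝ) ^ (1 + s1) * y ^ 6 := by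
    have h2 := ypow g2 h.y0
    calc (1 : ℝ) ≤ (n : ℝ) ^ (s1 + 6 * e) := Real.one_le_rpow hn1 (by linarith)
      _ = (n : ℝ) ^ (1 + s1) * (n : ℝ) ^ (-1 + 6 * e) := by
          rw [← Real.rpow_add hn0]
          congr 1
          ring
      _ ≤ _ := by gcongr
  have ht : 0 < 1 - t := by linarith
  have h3 := mom_CC (L := ⟨n, b, vp, s, lam, η, cc n b s a, y⟩) (by
    show 0 < lam
    linarith [h.lam1]) h.η0.le hy0 (by show 0 < n; omega) hb.ne' ht0 ht1 hyb S u hg h1 p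
  refine h3.trans (le_of_eq ?_)
  congr 2
  show 4 * ((n : ℝ) ^ (1 + s1) * y ^ 6) / (y ^ 2 * b ^ 2 * (1 - t) * n) = _
  rw [Real.rpow_add hn0, Real.rpow_one]
  field_simp

/-- **Tails, eventually**: `U² (1 - t) ≥ (n ^ s2 y²)²`. -/
theorem tail_ev1 {b e s0 s1 s2 : ℝ} (D : ℝ) (hb : 0 < b) (he : 0 < e) (hs0 : 0 ≤ s0)
    (hs : s0 < s1) (hs2 : s1 < 2 * s2) :
    ∀ᶠ n : ℕ in atTop, ∀ (vp s lam η y V a : ℝ), Par1 b s0 e n vp s lam η y V a →
      y ^ 2 * b ^ 2 ≤ 4 → ∀ t : ℝ, 0 ≤ t → t < 1 → ∀ u ∈ Icc (0 : ℝ) 1,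
      ∀ (S : Finset (Fin n)) (U : ℝ), 0 ≤ U → ((n : ℝ) ^ s2 * y ^ 2) ^ 2 ≤ U ^ 2 * (1 - t) →
      Law.ex' ⟨n, b, vp, s, lam, η, cc n b s a, y⟩ t u
        (H317.ind (U ^ 2) (CC ⟨n, b, vp, s, lam, η, cc n b s a, y⟩ S t u)) ≤
          (n : ℝ) ^ (-D) ∧
      Law.ex' ⟨n, b, vp, s, lam, η, cc n b s a, y⟩ t u
        (H317.ind U (Law.Q ⟨n, b, vp, s, lam, η, cc n b s a, y⟩ S t u)) ≤ (n : ℝ) ^ (-D) ∧
      Law.ex' ⟨n, b, vp, s, lam, η, cc n b s a, y⟩ t u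
        (H317.ind U (Law.Q0 ⟨n, b, vp, s, lam, η, cc n b s a, y⟩ S t u)) ≤ (n : ℝ) ^ (-D) := by
  filter_upwards [gn_ev1 hb he hs0 hs, eventually_ge_atTop 1,
    H178.ev_pow (show 0 < 2 * s2 - s1 by linarith) (64 * 3 / b ^ 2),
    H178.ev_log (show 0 < 6 * e by positivity) (1 + |D|)] with n g1 g2 g3 g4
  intro vp s lam η y V a h hyb t ht0 ht1 u hu S U hU hU2
  have hn1 : (1 : ℝ) ≤ n := by exact_mod_cast g2
  have hn0 : (0 : ℝ) < n := by linarith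
  have hlog : 0 ≤ Real.log n := Real.log_nonneg hn1
  have hy0 : 0 < y := lt_of_lt_of_le (Real.rpow_pos_of_pos hn0 _) h.y0
  have hg := g1 vp s lam η y V a h t ⟨ht0, ht1.le⟩ u hu
  have ht : 0 < 1 - t := by linarith
  set G := (n : ℝ) ^ (1 + s1) * y ^ 6 with hG
  have h1 : (n : ℝ) ^ (6 * e) ≤ G := by
    have h2 := ypow g2 h.y0
    calc (n : ℝ) ^ (6 * e) ≤ (n : ℝ) ^ (s1 + 6 * e) :=
          Real.rpow_le_rpow_of_exponent_le hn1 (by linarith)
      _ = (n : ℝ) ^ (1 + s1) * (n : ℝ) ^ (-1 + 6 * e) := by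
          rw [← Real.rpow_add hn0]
          congr 1
          ring
      _ ≤ _ := by
          rw [hG]
          gcongr
  have hD : (1 + |D|) * (1 + Real.log n) ≤ G := g4.trans h1
  -- the quadratic term
  have h3 : 3 * G ≤ y ^ 2 * b ^ 2 * (1 - t) * n / 4 * (U / 4) ^ 2 := by
    have h4 : y ^ 2 * b ^ 2 * (1 - t) * n / 4 * (U / 4) ^ 2 =
        y ^ 2 * b ^ 2 * n / 64 * (U ^ 2 * (1 - t)) := by ring
    rw [h4]
    have h5 : y ^ 2 * b ^ 2 * n / 64 * ((n : ℝ) ^ s2 * y ^ 2) ^ 2 ≤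
        y ^ 2 * b ^ 2 * n / 64 * (U ^ 2 * (1 - t)) :=
      mul_le_mul_of_nonneg_left hU2 (by positivity)
    refine le_trans ?_ h5
    have e1 : y ^ 2 * b ^ 2 * n / 64 * ((n : ℝ) ^ s2 * y ^ 2) ^ 2 =
        b ^ 2 / 64 * (n * ((n : ℝ) ^ s2) ^ 2 * y ^ 6) := by ring
    have e2 : n * ((n : ℝ) ^ s2) ^ 2 = (n : ℝ) ^ (1 + s1) * (n : ℝ) ^ (2 * s2 - s1) := by
      rw [← Real.rpow_natCast, ← Real.rpow_mul hn0.le, ← Real.rpow_add hn0]
      nth_rewrite 1 [← Real.rpow_one (n : ℝ)]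
      rw [← Real.rpow_add hn0]
      congr 1
      push_cast
      ring
    rw [e1, e2]
    have h6 : 3 ≤ b ^ 2 / 64 * (n : ℝ) ^ (2 * s2 - s1) := by
      rw [div_le_iff₀ (by positivity)] at g3
      linarith
    have h7 := mul_le_mul_of_nonneg_right h6
      (show 0 ≤ (n : ℝ) ^ (1 + s1) * y ^ 6 by positivity)
    rw [hG]
    linarith
  have key : ∀ q : ℝ, y ^ 2 * b ^ 2 * (1 - t) * n / 4 * (U / 4) ^ 2 ≤ q →
      Real.exp (gn ⟨n, b, vp, s, lam, η, cc n b s a, y⟩ t u + 1 - q) ≤ (n : ℝ) ^ (-D) := by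
    intro q hq
    rw [Real.rpow_def_of_pos hn0]
    refine Real.exp_le_exp.2 ?_
    have h8 : -|D| * Real.log n ≤ Real.log n * -D := by
      have := le_abs_self D
      nlinarith
    have h9 : (1 + |D|) * (1 + Real.log n) = 1 + |D| + Real.log n + |D| * Real.log n := by ring
    have h10 : 0 ≤ |D| := abs_nonneg D
    nlinarith
  have hc : 0 ≤ y ^ 2 * b ^ 2 * (1 - t) * n / 4 := by positivity
  have hl : 0 < lam := by linarith [h.lam1]
  have hnn : 0 < n := by omega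
  have hηη : (1 + η) ^ 2 ≤ 4 := by nlinarith [h.η0, h.η1]
  refine ⟨?_, ?_, ?_⟩
  · refine (tail_CC (L := ⟨n, b, vp, s, lam, η, cc n b s a, y⟩) hl h.η0.le hy0 hnn ht0 ht1.le hyb
      S u (U ^ 2)).trans (key _ ?_)
    show _ ≤ y ^ 2 * b ^ 2 * (1 - t) * n / 4 * U ^ 2
    refine mul_le_mul_of_nonneg_left ?_ hc
    nlinarith
  · have h5 := tail_Q' (L := ⟨n, b, vp, s, lam, η, cc n b s a, y⟩) hl h.η0.le hy0 hnn ht0 ht1.le
      hyb S u (show 0 ≤ U / (1 + η) ^ 2 by have := h.η0; positivity)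
    have e1 : (1 + η) ^ 2 * (U / (1 + η) ^ 2) = U := by
      have := h.η0
      field_simp
    rw [show (1 + (⟨n, b, vp, s, lam, η, cc n b s a, y⟩ : Law).η) ^ 2 *
      (U / (1 + η) ^ 2) = U from e1] at h5
    refine h5.trans (key _ ?_)
    show _ ≤ y ^ 2 * b ^ 2 * (1 - t) * n / 4 * (U / (1 + η) ^ 2) ^ 2
    refine mul_le_mul_of_nonneg_left (pow_le_pow_left₀ (by positivity) ?_ 2) hc
    have := h.η0
    gcongr
  · refine (tail_Q0 (L := ⟨n, b, vp, s, lam, η, cc n b s a, y⟩) hl h.η0.le hy0 hnn ht0 ht1.le hyb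
      S u hU).trans (key _ ?_)
    show _ ≤ y ^ 2 * b ^ 2 * (1 - t) * n / 4 * U ^ 2
    refine mul_le_mul_of_nonneg_left ?_ hc
    nlinarith

end Vale.Agent.P146.H516
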