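import Vale.Agent.P146.H178.AP
import Vale.Agent.P146.H529.LinkNum
import Vale.Agent.P146.H877.Sph

/-!
# P146: a supergradient of the natural functional in the variance is bounded below

`Phn` at a variance `V ≤ 1` is at most the annealed value, and at a large variance it is at
least the value of the configuration of the signs of the field. Hence every slope at `V` is
at least a positive constant.
-/

open MeasureTheory ProbabilityTheory Filter Topology Set

namespace Vale.Agent.P146.H516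

open Vale.Agent.P157.Lv Vale.Agent.P146 Vale.Agent.P146.H425 Vale.Agent.P146.H325
open Vale.Agent.P146.H332 Vale.Agent.P146.H877 Vale.Agent.P146.H9

/-! ### the exponential of the absolute value -/

lemma int_cExp_abs (c : ℝ) : Integrable (fun t : ℝ => Real.exp (c * |t|)) (gaussianReal 0 1) := by
  have h1 : Integrable (fun t : ℝ => Real.exp (c * t) + Real.exp (-c * t)) (gaussianReal 0 1) :=
    (integrable_exp_mul_gaussianReal c).add (integrable_exp_mul_gaussianReal (-c))
  refine h1.mono' (by fun_prop) (Eventually.of_forall fun t => ?_)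
  rw [Real.norm_eq_abs, abs_of_pos (Real.exp_pos _)]
  rcases abs_cases t with ⟨h, -⟩ | ⟨h, -⟩
  · rw [h]
    linarith [Real.exp_pos (-c * t)]
  · rw [h]
    have : c * -t = -c * t := by ring
    rw [this]
    linarith [Real.exp_pos (c * t)]

lemma abs_ge_gauss (t : ℝ) : 4 / 5 * (1 - Real.exp (-(3 / 2) * t ^ 2)) ≤ |t| := by
  have h1 : 1 - Real.exp (-(3 / 2) * t ^ 2) ≤ 1 := by linarith [Real.exp_pos (-(3 / 2) * t ^ 2)]
  have h2 : 1 - Real.exp (-(3 / 2) * t ^ 2) ≤ 3 / 2 * t ^ 2 := by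
    have := Real.add_one_le_exp (-(3 / 2) * t ^ 2)
    linarith
  have h3 : t ^ 2 = |t| ^ 2 := (sq_abs t).symm
  rw [h3] at h2 ⊢
  rw [h3] at h1
  rcases le_or_gt (4 / 5) |t| with h | h
  · linarith
  · nlinarith [abs_nonneg t]

lemma one_dim {c : ℝ} (hc : 0 ≤ c) :
    Real.exp (c * (2 / 5)) ≤ ∫ t, Real.exp (c * |t|) ∂(gaussianReal 0 1) := by
  have i0 : Integrable (fun t : ℝ => Real.exp (-(3 / 2) * t ^ 2)) (gaussianReal 0 1) :=
    integrable_exp_sq (by norm_num)
  have h0 : ∫ t, Real.exp (-(3 / 2) * t ^ 2) ∂(gaussianReal 0 1) = 1 / 2 := by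
    rw [integral_exp_sq (by norm_num)]
    have : Real.sqrt (1 - 2 * (-(3 / 2))) = 2 := by
      rw [show (1 : ℝ) - 2 * (-(3 / 2)) = 2 ^ 2 by norm_num]
      exact Real.sqrt_sq (by norm_num)
    rw [this]
  have h1 : ∀ t : ℝ, Real.exp (c * (2 / 5)) *
      (1 + c * (4 / 5 * (1 - Real.exp (-(3 / 2) * t ^ 2)) - 2 / 5)) ≤ Real.exp (c * |t|) := by
    intro t
    have h2 := Real.add_one_le_exp (c * |t| - c * (2 / 5))
    have h3 := mul_le_mul_of_nonneg_left (abs_ge_gauss t) hc
    have h4 : Real.exp (c * |t|) = Real.exp (c * (2 / 5)) * Real.exp (c * |t| - c * (2 / 5)) := by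
      rw [← Real.exp_add]
      congr 1
      ring
    rw [h4]
    refine mul_le_mul_of_nonneg_left ?_ (Real.exp_pos _).le
    linarith
  have i1 : Integrable (fun t : ℝ => Real.exp (c * (2 / 5)) *
      (1 + c * (4 / 5 * (1 - Real.exp (-(3 / 2) * t ^ 2)) - 2 / 5))) (gaussianReal 0 1) := by
    refine Integrable.const_mul ?_ _
    refine (integrable_const _).add ?_
    refine Integrable.const_mul ?_ _
    refine Integrable.sub ?_ (integrable_const _)
    exact ((integrable_const _).sub i0).const_mul _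
  have h5 := integral_mono i1 (int_cExp_abs c) h1
  refine le_trans (le_of_eq ?_) h5
  have e1 : (fun t : ℝ => Real.exp (c * (2 / 5)) *
      (1 + c * (4 / 5 * (1 - Real.exp (-(3 / 2) * t ^ 2)) - 2 / 5))) =
      fun t => Real.exp (c * (2 / 5)) * (1 + c * (2 / 5)) -
        Real.exp (c * (2 / 5)) * (c * (4 / 5)) * Real.exp (-(3 / 2) * t ^ 2) := by
    funext t
    ring
  simp only [e1]
  obtain ⟨k1, hk1⟩ : ∃ k1, k1 = Real.exp (c * (2 / 5)) * (1 + c * (2 / 5)) := ⟨_, rfl⟩
  obtain ⟨k2, hk2⟩ : ∃ k2, k2 = Real.exp (c * (2 / 5)) * (c * (4 / 5)) := ⟨_, rfl⟩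
  rw [← hk1, ← hk2, integral_sub (integrable_const _) (i0.const_mul _), integral_const_mul, h0,
    integral_const, probReal_univ, one_smul, hk1, hk2]
  ring

lemma exp_abs_low {n : ℕ} {c : ℝ} (hc : 0 ≤ c) :
    Integrable (fun z : Fin n → ℝ => Real.exp (c * ∑ i, |z i|)) (gI (Fin n)) ∧
    Real.exp (n * (c * (2 / 5))) ≤ ∫ z, Real.exp (c * ∑ i, |z i|) ∂(gI (Fin n)) := by
  have h : (fun z : Fin n → ℝ => Real.exp (c * ∑ i, |z i|)) =
      fun z => ∏ i, Real.exp (c * |z i|) := by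
    funext z
    rw [Finset.mul_sum, Real.exp_sum]
  constructor
  · rw [h]
    exact Integrable.fintype_prod (f := fun _ x => Real.exp (c * |x|)) fun _ => int_cExp_abs c
  · rw [h]
    have e := integral_fintype_prod_eq_prod (𝕜 := ℝ)
      (fun (_ : Fin n) (x : ℝ) => Real.exp (c * |x|)) (μ := fun _ => gaussianReal 0 1)
    have e' : ∫ z : Fin n → ℝ, ∏ i, Real.exp (c * |z i|) ∂(gI (Fin n)) =
        ∏ _i : Fin n, ∫ x, Real.exp (c * |x|) ∂(gaussianReal 0 1) := e
    rw [e']
    have e2 : Real.exp (n * (c * (2 / 5))) = ∏ _i : Fin n, Real.exp (c * (2 / 5)) := by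
      rw [Finset.prod_const, Finset.card_univ, Fintype.card_fin, ← Real.exp_nat_mul]
    rw [e2]
    exact Finset.prod_le_prod (fun _ _ => (Real.exp_pos _).le) fun _ _ => one_dim hc

/-! ### the lower bound -/

variable {n : ℕ} {b : ℝ}

lemma FH_low (b : ℝ) (y : Fin n → ℝ) (g : Pair n → ℝ) (σ : Fin n → ℤˣ) :
    b * hamiltonian n g σ + ∑ i, y i * ((σ i : ℤ) : ℝ) ≤ FH n b y g := by
  unfold FH
  rw [Real.le_log_iff_exp_le (FH_pos b y g)]
  exact Finset.single_le_sum (f := fun σ : Fin n → ℤˣ =>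
    Real.exp (b * hamiltonian n g σ + ∑ i, y i * ((σ i : ℤ) : ℝ)))
    (fun _ _ => (Real.exp_pos _).le) (Finset.mem_univ σ)

/-- the configuration of the signs -/
noncomputable def sg (z : Fin n → ℝ) (i : Fin n) : ℤˣ := if 0 ≤ z i then 1 else -1

lemma sg_mul (z : Fin n → ℝ) (i : Fin n) : z i * ((sg z i : ℤ) : ℝ) = |z i| := by
  unfold sg
  split_ifs with h
  · simp [abs_of_nonneg h]
  · simp [abs_of_neg (not_le.1 h)]

lemma ham_lin (b : ℝ) (g : Pair n → ℝ) (σ : Fin n → ℤˣ) :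
    b * hamiltonian n g σ = ∑ e : Pair n, (b / √n * SkS e σ) * g e := by
  unfold hamiltonian SkS sp
  rw [← mul_assoc, Finset.mul_sum]
  refine Finset.sum_congr rfl fun e _ => ?_
  ring

/-- sections of a function of exponential growth -/
lemma eg_eliml {α γ : Type} [Fintype α] [Fintype γ] {G : (α ⊕ γ → ℝ) → ℝ} (hG : EG G)
    (w2 : γ → ℝ) : EG fun w1 : α → ℝ => G (Sum.elim w1 w2) := by
  obtain ⟨C, k, hC, hk, hb⟩ := hG.bdd
  refine ⟨?_, C * Real.exp (k * ‖w2‖), k, by positivity, hk, fun w1 => ?_⟩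
  · refine hG.meas.comp (measurable_pi_lambda _ fun e => ?_)
    rcases e with e | e
    · exact measurable_pi_apply e
    · exact measurable_const
  · refine (hb _).trans ?_
    rw [mul_assoc, ← Real.exp_add, ← mul_add]
    refine mul_le_mul_of_nonneg_left (Real.exp_le_exp.2 (mul_le_mul_of_nonneg_left ?_ hk)) hC
    refine (pi_norm_le_iff_of_nonneg (by positivity)).2 fun e => ?_
    rcases e with e | e
    · exact (norm_le_pi_norm w1 e).trans (by linarith [norm_nonneg w2])
    · exact (norm_le_pi_norm w2 e).trans (by linarith [norm_nonneg w1])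

lemma inner_low (x : ℝ) (hx : 0 ≤ x) {v : ℝ} (z : Fin n → ℝ) :
    Real.exp (x * √v * ∑ i, |z i|) ≤
      ∫ g, Real.exp (x * FH n b (√v • z) g) ∂(disorder n) := by
  have i1 : Integrable (fun g => Real.exp (x * FH n b (√v • z) g)) (gI (Pair n)) := by
    have h := eg_eliml (eg_expF n b x v) z
    simp only [Fv_elim] at h
    exact h.integrable
  have h1 : ∀ g : Pair n → ℝ, Real.exp (x * √v * ∑ i, |z i|) *
      Real.exp (∑ e, (x * (b / √n * SkS e (sg z))) * g e) ≤
      Real.exp (x * FH n b (√v • z) g) := by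
    intro g
    rw [← Real.exp_add]
    refine Real.exp_le_exp.2 ?_
    have h2 := mul_le_mul_of_nonneg_left (FH_low b (√v • z) g (sg z)) hx
    have h3 : ∑ i, (√v • z) i * ((sg z i : ℤ) : ℝ) = √v * ∑ i, |z i| := by
      rw [Finset.mul_sum]
      refine Finset.sum_congr rfl fun i _ => ?_
      rw [Pi.smul_apply, smul_eq_mul, mul_assoc, sg_mul]
    rw [h3, ham_lin] at h2
    have h4 : ∑ e, (x * (b / √n * SkS e (sg z))) * g e =
        x * ∑ e, (b / √n * SkS e (sg z)) * g e := by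
      rw [Finset.mul_sum]
      refine Finset.sum_congr rfl fun e _ => ?_
      ring
    rw [h4]
    linarith
  have h5 := int_exp_lin (κ := Pair n) (fun e => x * (b / √n * SkS e (sg z)))
  have h6 := integral_mono (h5.1.const_mul (Real.exp (x * √v * ∑ i, |z i|))) i1 h1
  rw [integral_const_mul, h5.2] at h6
  have h7 : 1 ≤ Real.exp ((∑ e, (x * (b / √n * SkS e (sg z))) ^ 2) / 2) :=
    Real.one_le_exp (div_nonneg (Finset.sum_nonneg fun _ _ => sq_nonneg _) (by norm_num))
  have h8 := mul_le_mul_of_nonneg_left h7 (Real.exp_pos (x * √v * ∑ i, |z i|)).le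
  rw [mul_one] at h8
  exact h8.trans h6

theorem LPhi_low (x : ℝ) (hx : 0 ≤ x) (v : ℝ) :
    n * (x * √v * (2 / 5)) ≤ LPhi n b x v := by
  have hc : 0 ≤ x * √v := mul_nonneg hx (Real.sqrt_nonneg _)
  have hE := exp_abs_low (n := n) hc
  have hG := eg_expF n b x v
  have h3 : Integrable (fun q : (Pair n → ℝ) × (Fin n → ℝ) =>
      Real.exp (x * Fv n b v (Sum.elim q.1 q.2))) ((gI (Pair n)).prod (gI (Fin n))) :=
    MeasurePreserving.integrable_comp_of_integrable
      (g := fun w => Real.exp (x * Fv n b v w)) mp_sum hG.integrable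
  have h4 := h3.integral_prod_right
  simp only [Fv_elim] at h4
  have h5 : Real.exp (n * (x * √v * (2 / 5))) ≤
      ∫ z, ∫ g, Real.exp (x * FH n b (√v • z) g) ∂(disorder n) ∂(gI (Fin n)) :=
    hE.2.trans (integral_mono hE.1 h4 fun z => inner_low x hx z)
  unfold LPhi
  rw [Real.le_log_iff_exp_le ((Real.exp_pos _).trans_le h5)]
  exact h5

/-! ### the upper bound -/

lemma card_pair_le (n : ℕ) : (Fintype.card (Pair n) : ℝ) ≤ (n : ℝ) ^ 2 / 2 := by
  have h1 : Fintype.card (Pair n) + Fintype.card (Pair n) ≤ n ^ 2 := by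
    have h2 : Fintype.card (Pair n ⊕ Pair n) ≤ Fintype.card (Fin n × Fin n) := by
      refine Fintype.card_le_of_injective
        (fun q : Pair n ⊕ Pair n => Sum.elim (fun p => p.1) (fun p => (p.1.2, p.1.1)) q) ?_
      rintro (p | p) (q | q) hpq
      · simp only [Sum.elim_inl] at hpq
        rw [Subtype.ext hpq]
      · simp only [Sum.elim_inl, Sum.elim_inr] at hpq
        have h3 := p.2
        have h4 := q.2
        rw [hpq] at h3
        exact absurd h3 (not_lt.2 h4.le)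
      · simp only [Sum.elim_inl, Sum.elim_inr] at hpq
        have h3 := p.2
        have h4 := q.2
        rw [← hpq] at h4
        exact absurd h4 (not_lt.2 h3.le)
      · simp only [Sum.elim_inr, Prod.mk.injEq] at hpq
        rw [Subtype.ext (Prod.ext hpq.2 hpq.1)]
    rw [Fintype.card_sum, Fintype.card_prod, Fintype.card_fin] at h2
    rw [sq]
    exact h2
  have h5 : ((Fintype.card (Pair n) + Fintype.card (Pair n) : ℕ) : ℝ) ≤ ((n ^ 2 : ℕ) : ℝ) := by
    exact_mod_cast h1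
  push_cast at h5
  linarith only [h5]

lemma sum_Sf_sq {n : ℕ} (hn : 1 ≤ n) (b : ℝ) {v : ℝ} (hv : 0 ≤ v) (σ : Fin n → ℤˣ) :
    ∑ e, (Sf n b v e σ) ^ 2 ≤ b ^ 2 * n / 2 + n * v := by
  have hn0 : (0 : ℝ) < n := by exact_mod_cast hn
  rw [Fintype.sum_sum_type]
  refine add_le_add ?_ ?_
  · have h1 : ∀ e : Pair n, (Sf n b v (Sum.inl e) σ) ^ 2 = b ^ 2 / n := by
      intro e
      simp only [Sf, Sum.elim_inl, SkS, sp]
      rw [mul_pow, mul_pow, unit_sq, unit_sq, div_pow, Real.sq_sqrt hn0.le]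
      ring
    simp only [h1]
    rw [Finset.sum_const, nsmul_eq_mul, Finset.card_univ]
    have h2 := H516.card_pair_le n
    have h3 : (Fintype.card (Pair n) : ℝ) * (b ^ 2 / n) ≤ (n : ℝ) ^ 2 / 2 * (b ^ 2 / n) :=
      mul_le_mul_of_nonneg_right h2 (by positivity)
    have h4 : (n : ℝ) ^ 2 / 2 * (b ^ 2 / n) = b ^ 2 * n / 2 := by
      field_simp
    linarith
  · have h1 : ∀ i : Fin n, (Sf n b v (Sum.inr i) σ) ^ 2 = v := by
      intro i
      simp only [Sf, Sum.elim_inr, sp]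
      rw [mul_pow, unit_sq, Real.sq_sqrt hv, mul_one]
    simp only [h1]
    rw [Finset.sum_const, nsmul_eq_mul, Finset.card_univ, Fintype.card_fin]

theorem Phn_one_le {n : ℕ} (hn : 1 ≤ n) (b : ℝ) {v : ℝ} (hv : 0 ≤ v) :
    Phn n b 1 v ≤ n * (Real.log 2 + b ^ 2 / 4 + v / 2) := by
  have h1 : ∀ w : Pair n ⊕ Fin n → ℝ, Real.exp (1 * Fv n b v w) =
      ∑ σ : Fin n → ℤˣ, Real.exp (∑ e, Sf n b v e σ * w e) := by
    intro w
    unfold Fv lz
    rw [one_mul, Real.exp_log (Zp_pos _ _ _)]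
    unfold Zp ez
    simp only [one_mul]
  have h2 : ∫ w, Real.exp (1 * Fv n b v w) ∂(gI (Pair n ⊕ Fin n)) ≤
      Real.exp (n * (Real.log 2 + b ^ 2 / 4 + v / 2)) := by
    simp only [h1]
    rw [integral_finsetSum _ fun σ _ =>
      (int_exp_lin (κ := Pair n ⊕ Fin n) (fun e => Sf n b v e σ)).1]
    have h3 : ∀ σ ∈ (Finset.univ : Finset (Fin n → ℤˣ)),
        ∫ w, Real.exp (∑ e, Sf n b v e σ * w e) ∂(gI (Pair n ⊕ Fin n)) ≤
        Real.exp ((b ^ 2 * n / 2 + n * v) / 2) := by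
      intro σ _
      rw [(int_exp_lin (κ := Pair n ⊕ Fin n) (fun e => Sf n b v e σ)).2]
      refine Real.exp_le_exp.2 ?_
      have := sum_Sf_sq hn b hv σ
      linarith
    refine (Finset.sum_le_card_nsmul _ _ _ h3).trans (le_of_eq ?_)
    have hc : (Finset.univ : Finset (Fin n → ℤˣ)).card = 2 ^ n := by
      rw [Finset.card_univ, Fintype.card_fun, Fintype.card_fin]
      rfl
    rw [hc, nsmul_eq_mul]
    have h4 : ((2 ^ n : ℕ) : ℝ) = Real.exp (n * Real.log 2) := by
      rw [Real.exp_nat_mul, Real.exp_log (by norm_num)]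
      push_cast
      rfl
    rw [h4, ← Real.exp_add]
    congr 1
    ring
  unfold Phn
  rw [div_one, LPhi_eq]
  refine (Real.log_le_log (integral_exp_pos (eg_expF n b 1 v).integrable) h2).trans ?_
  rw [Real.log_exp]

/-- **The slopes of the natural functional are bounded below.** -/
theorem sg_low {b : ℝ} (hb : 0 < b) : ∃ c : ℝ, 0 < c ∧ ∀ n : ℕ, 1 ≤ n → ∀ y : ℝ, 0 < y → y ≤ 1 →
    ∀ V : ℝ, 0 < V → V ≤ 1 → ∀ a : ℝ, H529.SG n b y V a → c ≤ 1 + a := by
  obtain ⟨D, hD⟩ : ∃ D : ℝ, D = Real.log 2 + b ^ 2 / 4 + 1 / 2 := ⟨_, rfl⟩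
  have hl2 : 0 < Real.log 2 := Real.log_pos (by norm_num)
  have hD0 : 1 / 2 < D := by
    rw [hD]
    have := sq_nonneg b
    linarith
  obtain ⟨W, hW⟩ : ∃ W : ℝ, W = (5 / 2 * (D + 1)) ^ 2 := ⟨_, rfl⟩
  have hW1 : 1 < W := by
    rw [hW]
    nlinarith
  have hsW : √W = 5 / 2 * (D + 1) := by
    rw [hW]
    exact Real.sqrt_sq (by linarith)
  refine ⟨2 * b / W, by positivity, fun n hn y hy hy1 V hV hV1 a ha => ?_⟩
  have hn0 : (0 : ℝ) < n := by exact_mod_cast hn
  have h1 := ha W (by linarith)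
  have h2 : n * (D + 1) ≤ Phn n b y W := by
    have h := LPhi_low (n := n) (b := b) y hy.le W
    rw [hsW] at h
    unfold Phn
    rw [le_div_iff₀ hy]
    linarith
  have h3 : Phn n b y V ≤ n * D := by
    refine (H178.Phn_mono n b V hy hy1).trans ((Phn_one_le hn b hV.le).trans ?_)
    refine mul_le_mul_of_nonneg_left ?_ hn0.le
    rw [hD]
    linarith
  have h4 : (n : ℝ) ≤ n / (2 * b) * (1 + a) * (W - V) := by linarith
  have h5 : 0 < W - V := by linarith
  have h6 : (n : ℝ) / (2 * b) * (1 + a) * (W - V) = n * ((1 + a) * (W - V) / (2 * b)) := by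
    field_simp
  rw [h6] at h4
  have h7 : 1 ≤ (1 + a) * (W - V) / (2 * b) := by
    by_contra hc
    have := mul_lt_mul_of_pos_left (not_le.1 hc) hn0
    linarith
  rw [le_div_iff₀ (by positivity), one_mul] at h7
  have h8 : 0 < 1 + a := by
    by_contra hc
    have := mul_nonpos_of_nonpos_of_nonneg (not_lt.1 hc) h5.le
    linarith
  rw [div_le_iff₀ (by linarith)]
  nlinarith [mul_pos h8 hV]

end Vale.Agent.P146.H516
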