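import Vale.Agent.P146.H529.LinkSK
import Vale.Agent.P146.H412.Mom4Cx

/-!
P146, single-exponent route, block AP (a-priori sizes of the amplitude law), part 1.

The gain `y (Φ_amp (2 y) - Φ_amp y)` of the amplitude law which is built with the slope of the
exponent `y` is at most the gain of the natural law, plus the additive defect of the tangent
inequality at `2 y`, plus logarithms. The defect is controlled by the natural free energies alone:
`Φ (2 y) - Φ y ≤ τ` on the range of the amplitude.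

* `amp_le_add`, `lm_amp_le_add` : cost of the amplitude with an additive defect `τ`;
* `gain_eq` : the gain in terms of log-moments;
* `gain_amp` : abstract form; `gain_sk` : the SK model, in the coordinates of `H347`.
-/

open MeasureTheory ProbabilityTheory Filter Topology Set

namespace Vale.Agent.P146.H516

open Vale.Agent.P157.Lv Vale.Agent.P146.H425 Vale.Agent.P146.H325 Vale.Agent.P146.H196
  Vale.Agent.P146.H475 Vale.Agent.P146.H9 Vale.Agent.P146.H529 Vale.Agent.P146.H412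

set_option linter.unusedSectionVars false

section generic

variable {κ J X : Type} [Fintype κ] [DecidableEq κ] [Fintype J] [DecidableEq J]
  [Fintype X] [Nonempty X] [MeasurableSpace X] [MeasurableSingletonClass X]
  {S0 : κ → X → ℝ} {σ : J → X → ℝ} {lam s η c M0 z y v0 v τ : ℝ}

/-- **The cost from above**, with an additive defect of the tangent inequality. -/
theorem amp_le_add {M : ℕ} (hlam : 0 < lam) (hη : 0 < η) (hη1 : η ≤ 1) (hB : AB S0 σ s η M0)
    (hc : 0 ≤ c) (hz : 0 < z) (hz1 : z ≤ 1) (hM : 0 < M) (hM2 : 4 * η * c ≤ M)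
    (ht : ∀ a ∈ Icc (1 - η) (1 + η), Mw S0 σ s z a ≤
      Mw S0 σ s z 1 * Real.exp (z * (c / 2 * (a ^ 2 - 1)) + z * τ)) :
    MA S0 σ lam s η c z ≤ Mw S0 σ s z 1 * (2 * M * Real.exp (z * (1 + τ))) := by
  have := isProb_lap hlam
  have hM' : (0 : ℝ) < M := by exact_mod_cast hM
  have hle : (1 - η : ℝ) ≤ 1 + η := by linarith
  have h1 := mean_le (γ := lap lam) (P := gI (κ ⊕ J)) (R := fun a u => Rw S0 σ s a u) hle hM
    (measurable_al η) (al_mem hη.le) (conv_raw _ _) (comp_lip hc hη1) (by positivity) hz hz1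
    (fun a ha => (eg_raw hB ha z).integrable)
  have e1 : MoA (gI (κ ⊕ J)) (lap lam) (al η) (fun a => c / 2 * (a ^ 2 - 1))
      (fun a u => Rw S0 σ s a u) z = MA S0 σ lam s η c z := by
    unfold MoA MA
    refine integral_congr_ae (Eventually.of_forall fun u => ?_)
    simp only
    rw [Zxm_ZA hlam hη.le hB]
  rw [e1] at h1
  refine h1.trans ?_
  have hMw := (Mw_pos hB (a := 1) ⟨by linarith, by linarith⟩ z).le
  have hs : 2 * c * (((1 + η) - (1 - η)) / (M : ℝ)) ≤ 1 := by
    have e : 2 * c * (((1 + η) - (1 - η)) / (M : ℝ)) = 4 * η * c / M := by ring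
    rw [e, div_le_one hM']
    exact hM2
  have key : ∀ a ∈ Icc (1 - η) (1 + η), Real.exp (-(z * (c / 2 * (a ^ 2 - 1)))) *
      Mo (gI (κ ⊕ J)) (fun a u => Rw S0 σ s a u) z a ≤ Mw S0 σ s z 1 * Real.exp (z * τ) := by
    intro a ha
    refine (mul_le_mul_of_nonneg_left (ht a ha) (Real.exp_pos _).le).trans (le_of_eq ?_)
    rw [mul_left_comm, ← Real.exp_add]
    congr 2
    ring
  calc Real.exp (z * (2 * c * (((1 + η) - (1 - η)) / (M : ℝ)))) *
        ∑ k ∈ Finset.range M, (lap lam).real (bin (al η) (1 - η) (1 + η) M k) ^ z *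
          (Real.exp (-(z * (c / 2 * (gp (1 - η) (1 + η) M k ^ 2 - 1)))) *
              Mo (gI (κ ⊕ J)) (fun a u => Rw S0 σ s a u) z (gp (1 - η) (1 + η) M k) +
            Real.exp (-(z * (c / 2 * (gp (1 - η) (1 + η) M (k + 1) ^ 2 - 1)))) *
              Mo (gI (κ ⊕ J)) (fun a u => Rw S0 σ s a u) z (gp (1 - η) (1 + η) M (k + 1)))
      ≤ Real.exp (z * 1) * ∑ _k ∈ Finset.range M, 2 * (Mw S0 σ s z 1 * Real.exp (z * τ)) := by
        refine mul_le_mul (Real.exp_le_exp.2 (mul_le_mul_of_nonneg_left hs hz.le))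
          (Finset.sum_le_sum fun k hk => ?_) (Finset.sum_nonneg fun k _ => ?_)
          (Real.exp_pos _).le
        · have hk' := Finset.mem_range.1 hk
          have w1 : (lap lam).real (bin (al η) (1 - η) (1 + η) M k) ^ z ≤ 1 :=
            Real.rpow_le_one measureReal_nonneg measureReal_le_one hz.le
          have w0 : 0 ≤ (lap lam).real (bin (al η) (1 - η) (1 + η) M k) ^ z :=
            Real.rpow_nonneg measureReal_nonneg _
          have k1 := key _ (gp_mem hle hM hk'.le)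
          have k2 := key _ (gp_mem hle hM hk')
          have hT : 0 ≤ 2 * (Mw S0 σ s z 1 * Real.exp (z * τ)) := by positivity
          calc _ ≤ (lap lam).real (bin (al η) (1 - η) (1 + η) M k) ^ z *
                (2 * (Mw S0 σ s z 1 * Real.exp (z * τ))) :=
                mul_le_mul_of_nonneg_left (by linarith) w0
            _ ≤ 1 * (2 * (Mw S0 σ s z 1 * Real.exp (z * τ))) :=
                mul_le_mul_of_nonneg_right w1 hT
            _ = _ := one_mul _
        · refine mul_nonneg (Real.rpow_nonneg measureReal_nonneg _) (add_nonneg ?_ ?_)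
          · exact mul_nonneg (Real.exp_pos _).le (integral_nonneg fun _ => (Real.exp_pos _).le)
          · exact mul_nonneg (Real.exp_pos _).le (integral_nonneg fun _ => (Real.exp_pos _).le)
    _ = Mw S0 σ s z 1 * (2 * M * Real.exp (z * (1 + τ))) := by
        rw [Finset.sum_const, Finset.card_range, nsmul_eq_mul, mul_add, Real.exp_add]
        ring

/-- **The log-moment of the amplitude law from above**, additive defect. -/
theorem lm_amp_le_add (hlam : 0 < lam) (hη : 0 < η) (hη1 : η ≤ 1) (hB : AB S0 σ s η M0)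
    (hc : 0 ≤ c) (hz : 0 < z) (hz1 : z ≤ 1)
    (ht : ∀ a ∈ Icc (1 - η) (1 + η), Mw S0 σ s z a ≤
      Mw S0 σ s z 1 * Real.exp (z * (c / 2 * (a ^ 2 - 1)) + z * τ)) :
    lm (FA S0 σ lam s η c) z ≤
      lm (Rw S0 σ s 1) z + (Real.log (8 * η * c + 4) + z * (1 + τ)) := by
  have hMw := Mw_pos hB (a := 1) ⟨by linarith, by linarith⟩ z
  have hMA := MA_pos (c := c) hlam hη.le hB z
  obtain ⟨M, hM1, hM2⟩ : ∃ M : ℕ, 4 * η * c + 1 ≤ M ∧ (M : ℝ) ≤ 4 * η * c + 2 := by
    refine ⟨⌈4 * η * c + 1⌉₊, Nat.le_ceil _, ?_⟩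
    have := Nat.ceil_lt_add_one (by positivity : 0 ≤ 4 * η * c + 1)
    linarith
  have hc' : 0 ≤ 4 * η * c := by positivity
  have hM0 : (0 : ℝ) < M := by linarith
  have h1 := amp_le_add hlam hη hη1 hB hc hz hz1 (by exact_mod_cast hM0) (by linarith) ht
  rw [lm_FA, lm_Rw]
  have h2 := Real.log_le_log hMA h1
  rw [Real.log_mul hMw.ne' (by positivity), Real.log_mul (by positivity) (Real.exp_pos _).ne',
    Real.log_exp] at h2
  have h3 : Real.log (2 * M) ≤ Real.log (8 * η * c + 4) :=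
    Real.log_le_log (by positivity) (by linarith)
  linarith

/-- the gain in terms of log-moments -/
lemma gain_eq (hy : 0 < y) :
    gain (muA X lam η c) 1 y (SA S0 σ s η) =
      lm (FA S0 σ lam s η c) (2 * y) / 2 - lm (FA S0 σ lam s η c) y := by
  unfold gain
  rw [W_one_zero, W_one_zero]
  unfold lm FA
  field_simp

/-- **The gain of the amplitude law**: at most the natural gain plus the defect of the tangent
inequality at `2 y`. -/
theorem gain_amp (hlam : 0 < lam) (hη : 0 < η) (hη1 : η ≤ 1) (hB : AB S0 σ s η M0)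
    (hc : 0 ≤ c) (hy : 0 < y) (hy1 : 2 * y ≤ 1) (hl : 1 ≤ (lam + c) * η)
    (ht : ∀ a ∈ Icc (1 - η) (1 + η), Mw S0 σ s (2 * y) a ≤
      Mw S0 σ s (2 * y) 1 * Real.exp (2 * y * (c / 2 * (a ^ 2 - 1)) + 2 * y * τ)) :
    gain (muA X lam η c) 1 y (SA S0 σ s η) ≤
      (lm (Rw S0 σ s 1) (2 * y) / 2 - lm (Rw S0 σ s 1) y) + y * τ +
        (Real.log (8 * η * c + 4) / 2 + y * (Real.log (4 * (lam + c) / lam) + 3)) := by
  rw [gain_eq hy]
  have h1 := lm_amp_le_add hlam hη hη1 hB hc (by linarith : 0 < 2 * y) hy1 ht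
  have h2 := lm_amp_ge hlam hη hη1 hB hc hy hl
  linarith

end generic

section sk

open Vale.Agent.P146 Vale.Agent.P146.H347 Vale.Agent.P146.H877

variable {n : ℕ} {LB LF : Type} [Fintype LB] [DecidableEq LB] [Fintype LF] [DecidableEq LF]
  {b : ℝ} {cB : LB → ℝ} {cF : LF → ℝ} {lam s η c y v p τ : ℝ}

/-- The log-moment of the raw free energy. -/
lemma lm_sk (hB : ∑ l, cB l ^ 2 = 1) (hv : v = ∑ l, cF l ^ 2 + s ^ 2) (hv0 : 0 < v) (z : ℝ) :
    lm (Rw (S0 b cB cF) (fun (j : Fin n) (σ : Xs n) => sp σ j) s 1 : (Co n LB LF → ℝ) → ℝ) z =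
      LPhi n b z v := by
  have := msx n
  rw [lm_Rw, Mw_sk hB (by rw [one_pow, one_mul, ← hv]; exact hv0) z, Real.log_exp, one_pow,
    one_mul, ← hv]

/-- **The gain of the amplitude law of the SK model**, from the natural free energies at `y` and
`2 y` only. -/
theorem gain_sk (hB : ∑ l, cB l ^ 2 = 1) (hv : v = ∑ l, cF l ^ 2 + s ^ 2)
    (hs : 0 < s) (hlam : 0 < lam) (hη : 0 < η) (hη1 : η < 1) (hy : 0 < y) (hy1 : 2 * y ≤ 1)
    (hl : 1 ≤ (lam + c) * η)
    (hp : ∀ w ≥ 0, LPhi n b y w ≤ LPhi n b y v + p * (w - v)) (hp0 : 0 ≤ p)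
    (hc : c = 2 * s ^ 2 * (p / y))
    (htc : ∀ w ∈ Icc 0 (v + 3 * η * s ^ 2), Phn n b (2 * y) w - Phn n b y w ≤ τ) :
    gain (muA (Xs n) lam η c) 1 y (Sm b cB cF s η) ≤
      2 * (y * τ) + (Real.log (8 * η * c + 4) / 2 +
        y * (Real.log (4 * (lam + c) / lam) + 3)) := by
  have := msx n
  have h0 : 0 ≤ ∑ l, cF l ^ 2 := Finset.sum_nonneg fun _ _ => sq_nonneg _
  have hs2 : 0 < s ^ 2 := by positivity
  have hv0 : 0 < v := by rw [hv]; positivity
  have hc0 : 0 ≤ c := by rw [hc]; positivity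
  have hpos : ∀ a ∈ Icc (1 - η) (1 + η), 0 < ∑ l, cF l ^ 2 + a ^ 2 * s ^ 2 := by
    intro a ha
    have : 0 < a := by linarith [ha.1]
    positivity
  have h2y : 0 < 2 * y := by linarith
  -- the natural free energies increase with the exponent
  have hmono : Phn n b y v ≤ Phn n b (2 * y) v := by
    have h1 := (Phn_sub_bd n b v hy (by linarith : y ≤ 2 * y)).1
    have h2 := KV_nonneg n b v hy.le
    have h3 : 0 ≤ 1 / y - 1 / (2 * y) := by
      rw [sub_nonneg]
      exact one_div_le_one_div_of_le hy (by linarith)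
    have h4 := mul_nonneg h2 h3
    linarith
  have hL : ∀ w, LPhi n b y w = y * Phn n b y w := fun w => by
    unfold Phn
    field_simp
  have hL2 : ∀ w, LPhi n b (2 * y) w = 2 * y * Phn n b (2 * y) w := fun w => by
    unfold Phn
    field_simp
  have ht : ∀ a ∈ Icc (1 - η) (1 + η),
      Mw (S0 b cB cF) (fun (j : Fin n) (σ : Xs n) => sp σ j) s (2 * y) a ≤
      Mw (S0 b cB cF) (fun (j : Fin n) (σ : Xs n) => sp σ j) s (2 * y) 1 *
        Real.exp (2 * y * (c / 2 * (a ^ 2 - 1)) + 2 * y * τ) := by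
    intro a ha
    rw [Mw_sk hB (hpos a ha), Mw_sk hB (hpos 1 ⟨by linarith, by linarith⟩), ← Real.exp_add,
      Real.exp_le_exp]
    set w := ∑ l, cF l ^ 2 + a ^ 2 * s ^ 2 with hw
    have e1 : ∑ l, cF l ^ 2 + 1 ^ 2 * s ^ 2 = v := by rw [hv]; ring
    rw [e1]
    have e2 : w - v = s ^ 2 * (a ^ 2 - 1) := by rw [hv, hw]; ring
    have hw1 : w ≤ v + 3 * η * s ^ 2 := by
      have : a ^ 2 - 1 ≤ 3 * η := by nlinarith [ha.1, ha.2]
      have := mul_le_mul_of_nonneg_left this hs2.le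
      linarith
    have t1 := htc w ⟨(hpos a ha).le, hw1⟩
    have t2 := hp w (hpos a ha).le
    rw [hL, hL, e2] at t2
    rw [hL2, hL2]
    have t3 : p * (s ^ 2 * (a ^ 2 - 1)) = y * (c / 2 * (a ^ 2 - 1)) := by
      rw [hc]
      field_simp
    rw [t3] at t2
    have t4 : Phn n b y w ≤ Phn n b y v + c / 2 * (a ^ 2 - 1) := by
      have h5 : y * Phn n b y w ≤ y * (Phn n b y v + c / 2 * (a ^ 2 - 1)) := by linarith
      exact le_of_mul_le_mul_left h5 hy
    have t5 : Phn n b (2 * y) w ≤ Phn n b (2 * y) v + (c / 2 * (a ^ 2 - 1) + τ) := by linarith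
    have t6 := mul_le_mul_of_nonneg_left t5 h2y.le
    linarith
  have h1 := gain_amp hlam hη hη1.le (ab_sk n b cB cF s hη.le) hc0 hy hy1 hl ht
  have h2 : lm (Rw (S0 b cB cF) (fun (j : Fin n) (σ : Xs n) => sp σ j) s 1 :
      (Co n LB LF → ℝ) → ℝ) (2 * y) / 2 -
      lm (Rw (S0 b cB cF) (fun (j : Fin n) (σ : Xs n) => sp σ j) s 1 :
      (Co n LB LF → ℝ) → ℝ) y ≤ y * τ := by
    rw [lm_sk hB hv hv0, lm_sk hB hv hv0, hL, hL2]
    have h3 := htc v ⟨hv0.le, by nlinarith [mul_nonneg hη.le hs2.le]⟩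
    have h4 := mul_le_mul_of_nonneg_left h3 hy.le
    linarith
  change gain (muA (Xs n) lam η c) 1 y (SA (S0 b cB cF) (fun j σ => sp σ j) s η) ≤ _
  linarith

end sk

end Vale.Agent.P146.H516
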