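import Vale.Agent.P146.H516.BrLc
import Vale.Agent.P146.H615.NumU

/-!
# P146, the exclusion of the big root on the window `KW`, any level

`br_kw` : one `n`, level `ℓ ≥ n^(-9q) y`, region `192 τn ≤ y ℓ` where `-tauL ≤ τn`;
`brC` : level `C1 y` for `al ≤ Ca y²`; `brE` : level `n^(-8q) y` for `al ≤ A n^(-10q) y²`.
-/

open MeasureTheory ProbabilityTheory Filter Set

namespace Vale.Agent.P146.H516.BC

open Vale.Agent.P146.H418 Vale.Agent.P146.H529 Vale.Agent.P146.H470 Vale.Agent.P146.H412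
  Vale.Agent.P146.H516 Vale.Agent.P146.H516.Br Vale.Agent.P146.H615

set_option linter.unusedSectionVars false

/-- the unit of the window of the bonds -/
noncomputable def tB (q : ℝ) (n : ℕ) (y : ℝ) : ℝ := (n : ℝ) ^ (-(70 * q)) * y ^ 2 / 16

/-- the a priori size -/
noncomputable def UC (q : ℝ) (n : ℕ) (y : ℝ) : ℝ := (n : ℝ) ^ (37 * q) * y

/-- the real number of the hidden sites -/
noncomputable def MC (q : ℝ) (n : ℕ) (y : ℝ) : ℝ := (n : ℝ) ^ (1 - 110 * q) * y ^ 2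

/-- the lower end of the window of the hidden sites -/
noncomputable def mCA (q : ℝ) (n : ℕ) (y : ℝ) : ℕ := ⌊MC q n y / 4⌋₊

/-- the upper end of the window of the hidden sites -/
noncomputable def mCB (q : ℝ) (n : ℕ) (y : ℝ) : ℕ := ⌊MC q n y / 2⌋₊

/-- the size of the row -/
noncomputable def XC (q : ℝ) (n : ℕ) (y : ℝ) : ℝ := (n : ℝ) ^ (-(2926 * q)) * y

/-- the error of the cubic equation -/
noncomputable def eC (q : ℝ) (n : ℕ) (y : ℝ) : ℝ := (n : ℝ) ^ (-(1365 * q)) * y ^ 3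

section

variable {a0 b₁ q A b K : ℝ} {n : ℕ} {y V al s lam η : ℝ}

/-- the window with `10000 q ≤ b₁` and a constant -/
structure CW (a0 b₁ q A b K : ℝ) (n : ℕ) (y V al s lam η : ℝ) : Prop where
  nw : NW a0 b₁ q A b n y V al s lam η
  b1 : 10000 * q ≤ b₁
  K1 : K ≤ q / 1000 * Real.log n
  bb : 1 ≤ b
  alb : al ≤ b - 1
  aly : y * b ≤ 1 / 2

/-- the facts -/
lemma CW.facts (h : CW a0 b₁ q A b K n y V al s lam η) :
    0 < q * Real.log n ∧ 10000 ≤ q / 1000 * Real.log n ∧ 0 ≤ Real.log b ∧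
      Real.log b ≤ q / 1000 * Real.log n ∧ Real.log A ≤ q / 1000 * Real.log n ∧
      K ≤ q / 1000 * Real.log n ∧
      -(1 / 6) * Real.log n + 999 * (q * Real.log n) + 99 / 100 * (q * Real.log n) ≤
        Real.log y ∧
      Real.log y ≤ -(9999 * (q * Real.log n)) ∧
      3 * Real.log y - 24 * (q * Real.log n) - 1 / 100 * (q * Real.log n) ≤ Real.log V ∧
      Real.log V ≤ 3 * Real.log y - 24 * (q * Real.log n) + 1 / 100 * (q * Real.log n) ∧
      Real.log η ≤ -(2000 * q) * Real.log n ∧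
      Real.log lam ≤ -(3800 * q) * Real.log n + 2 * Real.log y + 2 * Real.log s +
        Real.log n := by
  obtain ⟨f1, f2, f3, f4, f5, f6, f7, f8, f9, f10, f11, f12, f13, f14⟩ := h.nw.facts
  have e := h.nw.env
  have hL := e.L1
  have hq := e.qL
  have m2 : 10000 * q * Real.log n ≤ b₁ * Real.log n :=
    mul_le_mul_of_nonneg_right h.b1 (by linarith)
  have yu := e.yu
  refine ⟨f1, by linarith, Real.log_nonneg h.bb, f3, f6, h.K1, by linarith, by linarith,
    by linarith, by linarith, f12, f14⟩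

lemma CW.mm (h : CW a0 b₁ q A b K n y V al s lam η) :
    16 ≤ MC q n y ∧ MC q n y / 8 ≤ mCA q n y ∧ mCA q n y ≤ mCB q n y ∧
      (mCB q n y : ℝ) ≤ MC q n y ∧ MC q n y / 4 ≤ (mCB q n y : ℝ) - mCA q n y + 1 ∧
      2 ≤ mCA q n y ∧ 2 * mCB q n y ≤ n ∧ mCB q n y + 1 ≤ H470.mm q n y ∧
      MC q n y = n * ((n : ℝ) ^ (-(110 * q)) * y ^ 2) := by
  obtain ⟨f1, f2, f3, f4, f5, f6, f7, f8, f9, f10, f11, f12⟩ := h.facts
  have hn := h.nw.env.n0
  have hy := h.nw.env.y0
  have c16 := log_c 16 (by norm_num)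
  have c2 := log_c 2 (by norm_num)
  have h8 : 16 ≤ MC q n y := by
    unfold MC
    refine le_of_log (by positivity) (by positivity) ?_
    simp (disch := positivity) only [Real.log_mul, Real.log_rpow, Real.log_pow]
    push_cast
    linarith only [f1, f2, f7, f8, c16]
  have hN : MC q n y ≤ n / 2 := by
    unfold MC
    refine le_of_log (by positivity) (by positivity) ?_
    simp (disch := positivity) only [Real.log_mul, Real.log_rpow, Real.log_pow, Real.log_div]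
    push_cast
    linarith only [f1, f2, f7, f8, c2]
  have a1 : (mCA q n y : ℝ) ≤ MC q n y / 4 := Nat.floor_le (by linarith)
  have a2 : MC q n y / 4 - 1 < mCA q n y := by
    have := Nat.lt_floor_add_one (MC q n y / 4)
    unfold mCA
    linarith
  have b1 : (mCB q n y : ℝ) ≤ MC q n y / 2 := Nat.floor_le (by linarith)
  have b2 : MC q n y / 2 - 1 < mCB q n y := by
    have := Nat.lt_floor_add_one (MC q n y / 2)
    unfold mCB
    linarith
  refine ⟨h8, by linarith, Nat.floor_le_floor (by linarith), by linarith, by linarith, ?_, ?_,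
    ?_, ?_⟩
  · exact Nat.le_floor (by push_cast; linarith)
  · have : (2 * mCB q n y : ℝ) ≤ n := by linarith
    exact_mod_cast this
  · have h1 : MC q n y ≤ H470.mm q n y := Nat.le_ceil _
    have h2 : (mCB q n y : ℝ) + 1 ≤ H470.mm q n y := by linarith
    exact_mod_cast h2
  · unfold MC
    rw [show (1 : ℝ) - 110 * q = 1 + -(110 * q) by ring, Real.rpow_add hn, Real.rpow_one]
    ring

/-- the sizes of `kp` and of the parameter of the slope -/
lemma CW.kp (h : CW a0 b₁ q A b K n y V al s lam η) {kp : ℝ} (hkp : kp = (1 + al) / b) :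
    0 < kp ∧ kp ≤ 1 ∧ kp * b = 1 + al ∧ kp = 1 - (1 - y) * H615.rq b y al ∧
      |H615.rq b y al| ≤ 1 := by
  obtain ⟨k1, k2, k3, k4, k5, k6, k7, k8⟩ := h.nw.bd
  have hb : 1 ≤ b := h.bb
  have hb0 : 0 < b := by linarith
  have hy := h.nw.env.y0
  obtain ⟨l1, l2⟩ := abs_le.1 h.nw.al_small
  have e1 : kp * b = 1 + al := by
    rw [hkp]
    field_simp
  have p1 : kp ≤ 1 := by
    rw [hkp, div_le_iff₀ hb0]
    linarith [h.alb]
  have p2 : y ≤ kp := by
    rw [hkp, le_div_iff₀ hb0]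
    linarith [h.aly]
  have hy1 : y < 1 := by linarith
  refine ⟨by linarith, p1, e1, ?_, ?_⟩
  · rw [H615.rq_eq hy1, hkp]
  · unfold H615.rq
    rw [← hkp, abs_le]
    have h1 : 0 < 1 - y := by linarith
    constructor
    · rw [le_div_iff₀ h1]
      nlinarith
    · rw [div_le_iff₀ h1]
      linarith

lemma cc_KW {kp : ℝ} (hkp : kp = (1 + al) / b) :
    (lawOf n b y V al s lam η).c =
      (lawOf n b y V al s lam η).s ^ 2 * (lawOf n b y V al s lam η).n * kp := by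
  show H529.cc n b s al = s ^ 2 * n * kp
  unfold H529.cc
  rw [hkp]
  ring

/-- the monomials of the linear coefficient -/
lemma CW.tau_mon (h : CW a0 b₁ q A b K n y V al s lam η) :
    4 * tB q n y ≤ 1 ∧ 4 * tB q n y ≤ (n : ℝ) ^ (25 * q) * y ^ 2 ∧
      (n : ℝ) ^ (-(110 * q)) * y ^ 2 ≤ (n : ℝ) ^ (25 * q) * y ^ 2 ∧
      6 * ((n : ℝ) ^ (25 * q) * y ^ 2) ≤ (n : ℝ) ^ (26 * q) * y ^ 2 ∧ 0 < tB q n y := by
  obtain ⟨f1, f2, f3, f4, f5, f6, f7, f8, f9, f10, f11, f12⟩ := h.facts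
  have hn := h.nw.env.n0
  have hy := h.nw.env.y0
  have c4 := log_c 4 (by norm_num)
  have c16 : 0 ≤ Real.log 16 := Real.log_nonneg (by norm_num)
  have c6 := log_c 6 (by norm_num)
  unfold tB
  refine ⟨?_, ?_, ?_, ?_, by positivity⟩
  · refine le_of_log (by positivity) (by positivity) ?_
    simp (disch := positivity) only [Real.log_mul, Real.log_rpow, Real.log_pow, Real.log_div,
      Real.log_one]
    push_cast
    linarith only [f1, f2, f8, c4, c16]
  · refine le_of_log (by positivity) (by positivity) ?_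
    simp (disch := positivity) only [Real.log_mul, Real.log_rpow, Real.log_pow, Real.log_div]
    push_cast
    linarith only [f1, f2, c4, c16]
  · refine le_of_log (by positivity) (by positivity) ?_
    simp (disch := positivity) only [Real.log_mul, Real.log_rpow, Real.log_pow]
    push_cast
    linarith only [f1, f2]
  · refine le_of_log (by positivity) (by positivity) ?_
    simp (disch := positivity) only [Real.log_mul, Real.log_rpow, Real.log_pow]
    push_cast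
    linarith only [f1, f2, c6]

/-- the linear coefficient of the cubic equation -/
lemma CW.tau (h : CW a0 b₁ q A b K n y V al s lam η) {kp X3 : ℝ} (hkp : kp = (1 + al) / b)
    (hX3 : 0 ≤ X3) (hal : al ≤ X3) {m : ℕ} (hm : m ≤ mCB q n y) {t : ℝ}
    (ht0 : 1 - 4 * tB q n y ≤ t) (ht1 : t ≤ 1) :
    |H694.tauL (lawOf n b y V al s lam η) kp m t| ≤ (n : ℝ) ^ (26 * q) * y ^ 2 ∧
      -H694.tauL (lawOf n b y V al s lam η) kp m t ≤ 3 * X3 := by
  obtain ⟨m1, m2, m3, m4, m5, m6, m7, m8, m9⟩ := h.mm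
  obtain ⟨-, -, p3, -, -⟩ := h.kp hkp
  obtain ⟨t1, t2, t3, t4, t5⟩ := h.tau_mon
  have hn := h.nw.env.n0
  have hy := h.nw.env.y0
  have haa := h.nw.al_abs
  obtain ⟨l1, l2⟩ := abs_le.1 h.nw.al_small
  have hmn : (m : ℝ) ≤ n * ((n : ℝ) ^ (-(110 * q)) * y ^ 2) := by
    rw [← m9]
    have : (m : ℝ) ≤ mCB q n y := by exact_mod_cast hm
    linarith
  have hm2 : 2 * (m : ℝ) ≤ n := by
    have h1 : 2 * m ≤ n := by omega
    exact_mod_cast h1
  exact tau_core p3 (Nat.cast_nonneg m) hmn hm2 hn (by positivity) l1 l2 haa hal hX3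
    (by linarith) ht1 (by linarith) t3 t4

/-- the small numbers -/
lemma CW.small (h : CW a0 b₁ q A b K n y V al s lam η) :
    1 / √(mCA q n y : ℝ) ≤ (n : ℝ) ^ (-(1 / 2) + 56 * q) / y ∧
      H694.jN (mCA q n y) (mCB q n y) ≤ (n : ℝ) ^ (-(1 / 2) + 56 * q) / y ∧
      lam / (s ^ 2 * n) ≤ (n : ℝ) ^ (-(3800 * q)) * y ^ 2 ∧
      H694.kN (lawOf n b y V al s lam η) (UC q n y) ((1 - dl q n / 2) - (1 - dl q n)) ≤
        XC q n y ∧ η ≤ (n : ℝ) ^ (-(2000 * q)) := by
  obtain ⟨f1, f2, f3, f4, f5, f6, f7, f8, f9, f10, f11, f12⟩ := h.facts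
  obtain ⟨m1, m2, m3, m4, m5, m6, m7, m8, m9⟩ := h.mm
  obtain ⟨hAd, v1, v2⟩ := h.nw.adm
  have hn := h.nw.env.n0
  have hy := h.nw.env.y0
  have hV := h.nw.env.V0
  have hs := h.nw.kw.s0
  have hl := h.nw.kw.l0
  have c8 := log_c 8 (by norm_num)
  have c4 := log_c 4 (by norm_num)
  have c2 := log_c 2 (by norm_num)
  have c14 := log_c 14 (by norm_num)
  have hM : 0 < MC q n y := by linarith
  have hMl : Real.log (MC q n y) = (1 - 110 * q) * Real.log n + 2 * Real.log y := by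
    unfold MC
    simp (disch := positivity) only [Real.log_mul, Real.log_rpow, Real.log_pow]
    push_cast
    ring
  refine ⟨?_, ?_, ?_, ?_, h.nw.kw.η1⟩
  · have g1 : 1 / √(mCA q n y : ℝ) ≤ 1 / √(MC q n y / 8) :=
      one_div_le_one_div_of_le (Real.sqrt_pos.2 (by positivity)) (Real.sqrt_le_sqrt m2)
    refine g1.trans ?_
    refine le_of_log (by positivity) (by positivity) ?_
    simp (disch := positivity) only [Real.log_div, Real.log_one, Real.log_sqrt, Real.log_rpow]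
    rw [hMl]
    linarith only [f1, f2, c8]
  · unfold H694.jN
    have g1 : √(14 / ((mCB q n y : ℝ) - mCA q n y + 1)) ≤ √(14 / (MC q n y / 4)) :=
      Real.sqrt_le_sqrt (by gcongr)
    refine g1.trans ?_
    refine le_of_log (by positivity) (by positivity) ?_
    simp (disch := positivity) only [Real.log_div, Real.log_sqrt, Real.log_rpow]
    rw [hMl]
    linarith only [f1, f2, c14, c4]
  · refine le_of_log (by positivity) (by positivity) ?_
    simp (disch := positivity) only [Real.log_div, Real.log_mul, Real.log_pow, Real.log_rpow]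
    push_cast
    linarith only [f12]
  · unfold H694.kN
    have hdl : 0 < dl q n := Real.rpow_pos_of_pos hn _
    have e1 : (1 - dl q n / 2) - (1 - dl q n) = dl q n / 2 := by ring
    rw [e1]
    have g1 : √(14 * UC q n y / (n * y ^ 2 * (V - s ^ 2) * (dl q n / 2))) ≤
        √(14 * UC q n y / (n * y ^ 2 * (V / 2) * (dl q n / 2))) := by
      have hU : 0 < UC q n y := by
        unfold UC
        positivity
      refine Real.sqrt_le_sqrt ?_
      gcongr
    refine (show H694.kN (lawOf n b y V al s lam η) (UC q n y) (dl q n / 2) ≤ _ from g1).trans ?_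
    unfold UC XC dl
    refine le_of_log (by positivity) (by positivity) ?_
    simp (disch := positivity) only [Real.log_div, Real.log_mul, Real.log_pow, Real.log_rpow,
      Real.log_sqrt]
    push_cast
    linarith only [f1, f2, f7, f9, c14, c2]

/-- the comparisons of the window -/
lemma CW.cmp (h : CW a0 b₁ q A b K n y V al s lam η) :
    0 < UC q n y ∧ UC q n y ≤ 1 ∧ y ≤ UC q n y ∧ V ≤ UC q n y ∧
      (n : ℝ) ^ (26 * q) * y ^ 2 ≤ UC q n y ^ 2 ∧ 4 * (y * b ^ 2) ≤ 1 ∧ 0 < eC q n y ∧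
      0 < XC q n y := by
  obtain ⟨f1, f2, f3, f4, f5, f6, f7, f8, f9, f10, f11, f12⟩ := h.facts
  have hn := h.nw.env.n0
  have hy := h.nw.env.y0
  have hV := h.nw.env.V0
  have hb0 : 0 < b := by linarith [h.bb]
  have c4 := log_c 4 (by norm_num)
  unfold UC eC XC
  refine ⟨by positivity, ?_, ?_, ?_, ?_, ?_, by positivity, by positivity⟩
  · refine le_of_log (by positivity) (by positivity) ?_
    simp (disch := positivity) only [Real.log_mul, Real.log_rpow, Real.log_one]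
    linarith only [f1, f8]
  · refine le_of_log (by positivity) (by positivity) ?_
    simp (disch := positivity) only [Real.log_mul, Real.log_rpow]
    linarith only [f1]
  · refine le_of_log (by positivity) (by positivity) ?_
    simp (disch := positivity) only [Real.log_mul, Real.log_rpow]
    linarith only [f1, f8, f10]
  · refine le_of_log (by positivity) (by positivity) ?_
    simp (disch := positivity) only [Real.log_mul, Real.log_rpow, Real.log_pow]
    push_cast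
    linarith only [f1]
  · refine le_of_log (by positivity) (by positivity) ?_
    simp (disch := positivity) only [Real.log_mul, Real.log_pow, Real.log_one]
    push_cast
    linarith only [f1, f2, f4, f8, c4]

end

/-! ### the errors -/

/-- the error of the third order term -/
lemma r3_le {b T e U h g k j k4 η x v p pR pC X : ℝ} (hU0 : 0 < U) (hU1 : U ≤ 1) (he0 : 0 < e)
    (hX0 : 0 < X)
    (hT : T ≤ e) (hh0 : 0 ≤ h) (hh : h ≤ U ^ 2) (hg0 : 0 ≤ g) (hg : g ≤ U ^ 2) (hk0 : 0 ≤ k)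
    (hk : k ≤ X) (hj0 : 0 ≤ j) (hj : U * j ≤ X) (hk40 : 0 ≤ k4) (hk4 : k4 ≤ U ^ 4)
    (hη : η ^ 2 * U ≤ X) (hx0 : 0 ≤ x) (hx : x ≤ U) (hv0 : 0 ≤ v) (hv : v ≤ X)
    (hvη : v * η ^ 2 ≤ X * U ^ 2)
    (hp0 : 0 ≤ p) (hp : p ≤ U ^ 2) (hpR0 : 0 ≤ pR) (hpR : pR ≤ U ^ 5) (hpR' : pR ≤ X ^ 2)
    (hpC0 : 0 ≤ pC) (hpC : pC ≤ U ^ 5) (hpC' : pC ≤ X ^ 2) :
    C3Amp.R3n b T e U h g k j k4 η x v p pR pC ≤
      C3Amp.KR b * (4 * (e * U ^ 3) + 6 * (X * U ^ 2 / e) + 9 * (U ^ 4 / e)) := by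
  have hKR : 0 ≤ C3Amp.KR b := by
    unfold C3Amp.KR
    positivity
  have hU3 : 0 < U ^ 3 := by positivity
  have hU4 : 0 < U ^ 4 := by positivity
  have u54 : U ^ 5 ≤ U ^ 4 := pow_le_pow_of_le_one hU0.le hU1 (by norm_num)
  have u53 : U ^ 5 ≤ U ^ 3 := pow_le_pow_of_le_one hU0.le hU1 (by norm_num)
  have a1 : k ^ 2 ≤ X ^ 2 := pow_le_pow_left₀ hk0 hk 2
  have a2 : η ^ 4 * U ^ 2 ≤ X ^ 2 := by
    calc η ^ 4 * U ^ 2 = (η ^ 2 * U) ^ 2 := by ring
      _ ≤ X ^ 2 := pow_le_pow_left₀ (by positivity) hη 2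
  have a3 : U ^ 2 * j ^ 2 ≤ X ^ 2 := by
    calc U ^ 2 * j ^ 2 = (U * j) ^ 2 := by ring
      _ ≤ X ^ 2 := pow_le_pow_left₀ (by positivity) hj 2
  have a4 : v ^ 2 ≤ X ^ 2 := pow_le_pow_left₀ hv0 hv 2
  have hW : C3Amp.Wn U k j η v pR pC ≤ 6 * X ^ 2 := by
    unfold C3Amp.Wn
    linarith
  have hW0 : 0 ≤ C3Amp.Wn U k j η v pR pC := by
    unfold C3Amp.Wn
    positivity
  have hV : C3Amp.Vn U k4 pR pC ≤ 4 * U ^ 4 := by
    unfold C3Amp.Vn
    linarith
  have hV0 : 0 ≤ C3Amp.Vn U k4 pR pC := by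
    unfold C3Amp.Vn
    positivity
  have b1 : √(C3Amp.Wn U k j η v pR pC * C3Amp.Vn U k4 pR pC) ≤ 5 * (X * U ^ 2) := by
    rw [Real.sqrt_le_left (by positivity)]
    calc C3Amp.Wn U k j η v pR pC * C3Amp.Vn U k4 pR pC ≤ 6 * X ^ 2 * (4 * U ^ 4) := by gcongr
      _ ≤ (5 * (X * U ^ 2)) ^ 2 := by nlinarith [sq_nonneg (X * U ^ 2)]
  have b2 : (pR + pC) / U ≤ 2 * U ^ 4 := by
    rw [div_le_iff₀ hU0]
    calc pR + pC ≤ U ^ 5 + U ^ 5 := add_le_add hpR hpC
      _ = _ := by ring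
  have b3 : U * (h + g) ^ 2 ≤ 4 * U ^ 4 := by
    calc U * (h + g) ^ 2 ≤ U * (U ^ 2 + U ^ 2) ^ 2 := by gcongr
      _ = 4 * U ^ 5 := by ring
      _ ≤ _ := by linarith
  have b4 : p ^ 2 ≤ U ^ 4 := by
    calc p ^ 2 ≤ (U ^ 2) ^ 2 := pow_le_pow_left₀ hp0 hp 2
      _ = U ^ 4 := by ring
  have b6 : x ^ 2 * U ^ 2 ≤ U ^ 4 := by
    calc x ^ 2 * U ^ 2 ≤ U ^ 2 * U ^ 2 := by gcongr
      _ = U ^ 4 := by ring
  have c1 : (T + e) * (U ^ 3 + pR) ≤ 4 * (e * U ^ 3) := by
    calc (T + e) * (U ^ 3 + pR) ≤ (e + e) * (U ^ 3 + U ^ 3) := by gcongr; linarith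
      _ = _ := by ring
  have c2 : 1 / e * (√(C3Amp.Wn U k j η v pR pC * C3Amp.Vn U k4 pR pC) + U ^ 4 +
      (pR + pC) / U + U * (h + g) ^ 2 + p ^ 2 + v * η ^ 2 + x ^ 2 * U ^ 2) ≤
      6 * (X * U ^ 2 / e) + 9 * (U ^ 4 / e) := by
    calc 1 / e * (√(C3Amp.Wn U k j η v pR pC * C3Amp.Vn U k4 pR pC) + U ^ 4 +
      (pR + pC) / U + U * (h + g) ^ 2 + p ^ 2 + v * η ^ 2 + x ^ 2 * U ^ 2)
        ≤ 1 / e * (6 * (X * U ^ 2) + 9 * U ^ 4) :=
          mul_le_mul_of_nonneg_left (by linarith) (by positivity)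
      _ = _ := by ring
  unfold C3Amp.R3n
  exact mul_le_mul_of_nonneg_left (by linarith) hKR

/-- the error of the cubic equation -/
lemma e1_le {b C U hh g v η x k p j δ T pR R3 τ : ℝ} (hb : 1 ≤ b)
    (m1 : U * hh ≤ τ) (m2 : U * g ≤ τ) (m3 : v * η ≤ τ) (m4 : x * η * U ^ 2 ≤ τ)
    (m5 : x * U * k ≤ τ) (m6 : p ≤ τ) (m7 : U * j ^ 2 ≤ τ) (m8 : U ^ 4 * (j + hh) / δ ≤ τ)
    (m9 : x * (T * U ^ 2) ≤ τ) (m10 : x * (v * U) ≤ τ) (m11 : x * v ^ 2 ≤ τ) (m12 : pR ≤ τ) :
    H694.E1n b C U hh g v η x k p j δ T pR R3 ≤ δ + H694.CE b C * (12 * τ) + R3 := by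
  have hCE := (H694.CE_pos (C := C) hb).le
  unfold H694.E1n
  have h1 := mul_le_mul_of_nonneg_left (show U * (hh + g) + v * η + x * η * U ^ 2 + x * U * k +
    p + U * j ^ 2 + U ^ 4 * (j + hh) / δ + x * (T * U ^ 2 + v * U + v ^ 2) + pR ≤
    12 * τ by
      have e1 : U * (hh + g) = U * hh + U * g := by ring
      have e2 : x * (T * U ^ 2 + v * U + v ^ 2) = x * (T * U ^ 2) + x * (v * U) + x * v ^ 2 := by
        ring
      rw [e1, e2]
      linarith) hCE
  linarith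

/-! ### the numbers of the exclusion -/

section

variable {a0 b₁ q A b K : ℝ} {n : ℕ} {y V al s lam η : ℝ}

lemma CW.r3n (h : CW a0 b₁ q A b K n y V al s lam η) (hK : Real.log (C3Amp.KR b) ≤ K) :
    C3Amp.R3n b (4 * tB q n y) ((n : ℝ) ^ (-(1483 * q))) (UC q n y) (1 / √(mCA q n y : ℝ))
      (lam / (s ^ 2 * n))
      (H694.kN (lawOf n b y V al s lam η) (UC q n y) ((1 - dl q n / 2) - (1 - dl q n)))
      (H694.jN (mCA q n y) (mCB q n y)) (C3Amp.k4N (lawOf n b y V al s lam η) (UC q n y)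
      (tB q n y)) η y (V - s ^ 2) ((n : ℝ) ^ (-1 : ℝ)) ((n : ℝ) ^ (-2 : ℝ))
      ((n : ℝ) ^ (-2 : ℝ)) ≤ (n : ℝ) ^ (-(1366 * q)) * y ^ 3 := by
  obtain ⟨f1, f2, f3, f4, f5, f6, f7, f8, f9, f10, f11, f12⟩ := h.facts
  obtain ⟨g1, g2, g3, g4, g5⟩ := h.small
  obtain ⟨hAd, v1, v2⟩ := h.nw.adm
  obtain ⟨t1, t2, t3, t4, t5⟩ := h.tau_mon
  obtain ⟨w1, w2, w3, w4, w5, w6, w7, w8⟩ := h.cmp
  have hn := h.nw.env.n0
  have hy := h.nw.env.y0
  have hV := h.nw.env.V0
  have hs := h.nw.kw.s0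
  have hl := h.nw.kw.l0
  have hη0 := h.nw.kw.η0
  have hb0 : 0 < b := by linarith only [h.bb]
  have c4 := log_c 4 (by norm_num)
  have c16 : 0 ≤ Real.log 16 := Real.log_nonneg (by norm_num)
  have c16' := log_c 16 (by norm_num)
  have c14 := log_c 14 (by norm_num)
  have x1 : 4 * tB q n y ≤ (n : ℝ) ^ (-(1483 * q)) := by
    unfold tB
    refine le_of_log (by positivity) (by positivity) ?_
    simp (disch := positivity) only [Real.log_mul, Real.log_rpow, Real.log_pow, Real.log_div]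
    push_cast
    linarith only [f1, f2, f8, c4, c16]
  have x2 : (n : ℝ) ^ (-(1 / 2) + 56 * q) / y ≤ UC q n y ^ 2 := by
    unfold UC
    refine le_of_log (by positivity) (by positivity) ?_
    simp (disch := positivity) only [Real.log_mul, Real.log_rpow, Real.log_pow, Real.log_div]
    push_cast
    linarith only [f1, f2, f7, f8]
  have x3 : (n : ℝ) ^ (-(3800 * q)) * y ^ 2 ≤ UC q n y ^ 2 := by
    unfold UC
    refine le_of_log (by positivity) (by positivity) ?_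
    simp (disch := positivity) only [Real.log_mul, Real.log_rpow, Real.log_pow]
    push_cast
    linarith only [f1, f2]
  have x4 : UC q n y * ((n : ℝ) ^ (-(1 / 2) + 56 * q) / y) ≤ XC q n y := by
    unfold UC XC
    refine le_of_log (by positivity) (by positivity) ?_
    simp (disch := positivity) only [Real.log_mul, Real.log_rpow, Real.log_div]
    linarith only [f1, f2, f7, f8]
  have e4 : C3Amp.k4N (lawOf n b y V al s lam η) (UC q n y) (tB q n y) =
      14 * UC q n y ^ 2 / (n * y ^ 2 * b ^ 2 * tB q n y) := rfl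
  have x5 : C3Amp.k4N (lawOf n b y V al s lam η) (UC q n y) (tB q n y) ≤ UC q n y ^ 4 := by
    rw [e4]
    unfold UC tB
    refine le_of_log (by positivity) (by positivity) ?_
    simp (disch := positivity) only [Real.log_mul, Real.log_rpow, Real.log_pow, Real.log_div]
    push_cast
    linarith only [f1, f2, f3, f7, f8, c14, c16']
  have x6 : 0 ≤ C3Amp.k4N (lawOf n b y V al s lam η) (UC q n y) (tB q n y) := by
    rw [e4]
    positivity
  have x7 : η ^ 2 * UC q n y ≤ XC q n y := by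
    unfold UC XC
    refine le_of_log (by positivity) (by positivity) ?_
    simp (disch := positivity) only [Real.log_mul, Real.log_rpow, Real.log_pow]
    push_cast
    linarith only [f1, f2, f11]
  have x8 : V ≤ XC q n y := by
    unfold XC
    refine le_of_log (by positivity) (by positivity) ?_
    simp (disch := positivity) only [Real.log_mul, Real.log_rpow]
    linarith only [f1, f2, f8, f10]
  have x9 : V * η ^ 2 ≤ XC q n y * UC q n y ^ 2 := by
    unfold XC UC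
    refine le_of_log (by positivity) (by positivity) ?_
    simp (disch := positivity) only [Real.log_mul, Real.log_rpow, Real.log_pow]
    push_cast
    linarith only [f1, f2, f8, f10, f11]
  have x10 : (n : ℝ) ^ (-1 : ℝ) ≤ UC q n y ^ 2 := by
    unfold UC
    refine le_of_log (by positivity) (by positivity) ?_
    simp (disch := positivity) only [Real.log_mul, Real.log_rpow, Real.log_pow]
    push_cast
    linarith only [f1, f2, f7, f8]
  have x11 : (n : ℝ) ^ (-2 : ℝ) ≤ UC q n y ^ 5 := by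
    unfold UC
    refine le_of_log (by positivity) (by positivity) ?_
    simp (disch := positivity) only [Real.log_mul, Real.log_rpow, Real.log_pow]
    push_cast
    linarith only [f1, f2, f7, f8]
  have x12 : (n : ℝ) ^ (-2 : ℝ) ≤ XC q n y ^ 2 := by
    unfold XC
    refine le_of_log (by positivity) (by positivity) ?_
    simp (disch := positivity) only [Real.log_mul, Real.log_rpow, Real.log_pow]
    push_cast
    linarith only [f1, f2, f7, f8]
  have hj0 : 0 ≤ H694.jN (mCA q n y) (mCB q n y) := Real.sqrt_nonneg _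
  have x13 : (V - s ^ 2) * η ^ 2 ≤ XC q n y * UC q n y ^ 2 :=
    (mul_le_mul_of_nonneg_right v2 (sq_nonneg η)).trans x9
  have x14 : UC q n y * H694.jN (mCA q n y) (mCB q n y) ≤ XC q n y :=
    (mul_le_mul_of_nonneg_left g2 w1.le).trans x4
  have key := r3_le (b := b) (T := 4 * tB q n y) (e := (n : ℝ) ^ (-(1483 * q)))
    (U := UC q n y) (h := 1 / √(mCA q n y : ℝ)) (g := lam / (s ^ 2 * n))
    (k := H694.kN (lawOf n b y V al s lam η) (UC q n y) ((1 - dl q n / 2) - (1 - dl q n)))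
    (j := H694.jN (mCA q n y) (mCB q n y))
    (k4 := C3Amp.k4N (lawOf n b y V al s lam η) (UC q n y) (tB q n y)) (η := η) (x := y)
    (v := V - s ^ 2) (p := (n : ℝ) ^ (-1 : ℝ)) (pR := (n : ℝ) ^ (-2 : ℝ))
    (pC := (n : ℝ) ^ (-2 : ℝ)) (X := XC q n y) w1 w2 (by positivity) w8 x1 (by positivity)
    (g1.trans x2) (by positivity) (g3.trans x3) (Real.sqrt_nonneg _) g4 hj0 x14 x6 x5 x7
    hy.le w3 (by linarith only [v1, hV]) (v2.trans x8) x13 (by positivity) x10 (by positivity)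
    x11 x12 (by positivity) x11 x12
  refine key.trans ?_
  have hKR : 0 < C3Amp.KR b := by
    unfold C3Amp.KR
    positivity
  have hcl : Real.log (C3Amp.KR b) ≤ q / 1000 * Real.log n := hK.trans f6
  have c12 := log_c 12 (by norm_num)
  have c18 := log_c 18 (by norm_num)
  have c27 := log_c 27 (by norm_num)
  have z1 : C3Amp.KR b * (12 * ((n : ℝ) ^ (-(1483 * q)) * UC q n y ^ 3)) ≤
      (n : ℝ) ^ (-(1366 * q)) * y ^ 3 := by
    unfold UC
    refine le_of_log (by positivity) (by positivity) ?_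
    simp (disch := positivity) only [Real.log_mul, Real.log_rpow, Real.log_pow]
    push_cast
    linarith only [f1, f2, c12, hcl]
  have z2 : C3Amp.KR b * (18 * (XC q n y * UC q n y ^ 2 / (n : ℝ) ^ (-(1483 * q)))) ≤
      (n : ℝ) ^ (-(1366 * q)) * y ^ 3 := by
    unfold UC XC
    refine le_of_log (by positivity) (by positivity) ?_
    simp (disch := positivity) only [Real.log_mul, Real.log_rpow, Real.log_pow, Real.log_div]
    push_cast
    linarith only [f1, f2, c18, hcl]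
  have z3 : C3Amp.KR b * (27 * (UC q n y ^ 4 / (n : ℝ) ^ (-(1483 * q)))) ≤
      (n : ℝ) ^ (-(1366 * q)) * y ^ 3 := by
    unfold UC
    refine le_of_log (by positivity) (by positivity) ?_
    simp (disch := positivity) only [Real.log_mul, Real.log_rpow, Real.log_pow, Real.log_div]
    push_cast
    linarith only [f1, f2, f8, c27, hcl]
  linarith only [z1, z2, z3]

lemma CW.e1n (h : CW a0 b₁ q A b K n y V al s lam η)
    (hK : Real.log (H694.CE b (30 * b ^ 3)) ≤ K) {R3 : ℝ}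
    (hR : R3 ≤ (n : ℝ) ^ (-(1366 * q)) * y ^ 3) :
    H694.E1n b (30 * b ^ 3) (UC q n y) (1 / √(mCA q n y : ℝ)) (lam / (s ^ 2 * n)) (V - s ^ 2) η
      y (H694.kN (lawOf n b y V al s lam η) (UC q n y) ((1 - dl q n / 2) - (1 - dl q n)))
      ((n : ℝ) ^ (-1 : ℝ)) (H694.jN (mCA q n y) (mCB q n y))
      ((n : ℝ) ^ (-(1390 * q)) * y ^ 3) (4 * tB q n y) ((n : ℝ) ^ (-2 : ℝ)) R3 ≤
      eC q n y := by
  obtain ⟨f1, f2, f3, f4, f5, f6, f7, f8, f9, f10, f11, f12⟩ := h.facts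
  obtain ⟨g1, g2, g3, g4, g5⟩ := h.small
  obtain ⟨hAd, v1, v2⟩ := h.nw.adm
  obtain ⟨t1, t2, t3, t4, t5⟩ := h.tau_mon
  obtain ⟨w1, w2, w3, w4, w5, w6, w7, w8⟩ := h.cmp
  have hn := h.nw.env.n0
  have hy := h.nw.env.y0
  have hV := h.nw.env.V0
  have hs := h.nw.kw.s0
  have hl := h.nw.kw.l0
  have hη0 := h.nw.kw.η0
  have hb0 : 0 < b := by linarith only [h.bb]
  obtain ⟨τ, hτ⟩ : ∃ τ, τ = (n : ℝ) ^ (-(1368 * q)) * y ^ 3 := ⟨_, rfl⟩
  have c2 := log_c 2 (by norm_num)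
  have c4 := log_c 4 (by norm_num)
  have c16 : 0 ≤ Real.log 16 := Real.log_nonneg (by norm_num)
  obtain ⟨H, hH⟩ : ∃ H, H = (n : ℝ) ^ (-(1 / 2) + 56 * q) / y := ⟨_, rfl⟩
  have hH0 : 0 < H := by
    rw [hH]
    positivity
  rw [← hH] at g1 g2
  have hj0 : 0 ≤ H694.jN (mCA q n y) (mCB q n y) := Real.sqrt_nonneg _
  have hk0 : 0 ≤ H694.kN (lawOf n b y V al s lam η) (UC q n y)
    ((1 - dl q n / 2) - (1 - dl q n)) := Real.sqrt_nonneg _
  have m1 : UC q n y * (1 / √(mCA q n y : ℝ)) ≤ τ := by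
    refine (mul_le_mul_of_nonneg_left g1 w1.le).trans ?_
    rw [hτ, hH]
    unfold UC
    refine le_of_log (by positivity) (by positivity) ?_
    simp (disch := positivity) only [Real.log_mul, Real.log_rpow, Real.log_pow, Real.log_div]
    push_cast
    linarith only [f1, f2, f7, f8]
  have m2 : UC q n y * (lam / (s ^ 2 * n)) ≤ τ := by
    refine (mul_le_mul_of_nonneg_left g3 w1.le).trans ?_
    rw [hτ]
    unfold UC
    refine le_of_log (by positivity) (by positivity) ?_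
    simp (disch := positivity) only [Real.log_mul, Real.log_rpow, Real.log_pow]
    push_cast
    linarith only [f1, f2]
  have m3 : (V - s ^ 2) * η ≤ τ := by
    refine (mul_le_mul_of_nonneg_right v2 hη0.le).trans ?_
    rw [hτ]
    refine le_of_log (by positivity) (by positivity) ?_
    simp (disch := positivity) only [Real.log_mul, Real.log_rpow, Real.log_pow]
    push_cast
    linarith only [f1, f2, f10, f11]
  have m4 : y * η * UC q n y ^ 2 ≤ τ := by
    rw [hτ]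
    unfold UC
    refine le_of_log (by positivity) (by positivity) ?_
    simp (disch := positivity) only [Real.log_mul, Real.log_rpow, Real.log_pow]
    push_cast
    linarith only [f1, f2, f11]
  have m5 : y * UC q n y * H694.kN (lawOf n b y V al s lam η) (UC q n y)
      ((1 - dl q n / 2) - (1 - dl q n)) ≤ τ := by
    refine (mul_le_mul_of_nonneg_left g4 (by positivity)).trans ?_
    rw [hτ]
    unfold UC XC
    refine le_of_log (by positivity) (by positivity) ?_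
    simp (disch := positivity) only [Real.log_mul, Real.log_rpow, Real.log_pow]
    push_cast
    linarith only [f1, f2]
  have m6 : (n : ℝ) ^ (-1 : ℝ) ≤ τ := by
    rw [hτ]
    refine le_of_log (by positivity) (by positivity) ?_
    simp (disch := positivity) only [Real.log_mul, Real.log_rpow, Real.log_pow]
    push_cast
    linarith only [f1, f2, f7, f8]
  have m7 : UC q n y * H694.jN (mCA q n y) (mCB q n y) ^ 2 ≤ τ := by
    refine (mul_le_mul_of_nonneg_left (pow_le_pow_left₀ hj0 g2 2) w1.le).trans ?_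
    rw [hτ, hH]
    unfold UC
    refine le_of_log (by positivity) (by positivity) ?_
    simp (disch := positivity) only [Real.log_mul, Real.log_rpow, Real.log_pow, Real.log_div]
    push_cast
    linarith only [f1, f2, f7, f8]
  have m8 : UC q n y ^ 4 * (H694.jN (mCA q n y) (mCB q n y) + 1 / √(mCA q n y : ℝ)) /
      ((n : ℝ) ^ (-(1390 * q)) * y ^ 3) ≤ τ := by
    have h1 : UC q n y ^ 4 * (H694.jN (mCA q n y) (mCB q n y) + 1 / √(mCA q n y : ℝ)) /
      ((n : ℝ) ^ (-(1390 * q)) * y ^ 3) ≤ UC q n y ^ 4 * (2 * H) /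
      ((n : ℝ) ^ (-(1390 * q)) * y ^ 3) := by
      gcongr
      linarith only [g1, g2]
    refine h1.trans ?_
    rw [hτ, hH]
    unfold UC
    refine le_of_log (by positivity) (by positivity) ?_
    simp (disch := positivity) only [Real.log_mul, Real.log_rpow, Real.log_pow, Real.log_div]
    push_cast
    linarith only [f1, f2, f7, f8, c2]
  have m9 : y * (4 * tB q n y * UC q n y ^ 2) ≤ τ := by
    rw [hτ]
    unfold UC tB
    refine le_of_log (by positivity) (by positivity) ?_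
    simp (disch := positivity) only [Real.log_mul, Real.log_rpow, Real.log_pow, Real.log_div]
    push_cast
    linarith only [f1, f2, f8, c4, c16]
  have m10 : y * ((V - s ^ 2) * UC q n y) ≤ τ := by
    refine (mul_le_mul_of_nonneg_left (mul_le_mul_of_nonneg_right v2 w1.le) hy.le).trans ?_
    rw [hτ]
    unfold UC
    refine le_of_log (by positivity) (by positivity) ?_
    simp (disch := positivity) only [Real.log_mul, Real.log_rpow, Real.log_pow]
    push_cast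
    linarith only [f1, f2, f8, f10]
  have m11 : y * (V - s ^ 2) ^ 2 ≤ τ := by
    refine (mul_le_mul_of_nonneg_left (pow_le_pow_left₀ (by linarith only [v1, hV]) v2 2)
      hy.le).trans ?_
    rw [hτ]
    refine le_of_log (by positivity) (by positivity) ?_
    simp (disch := positivity) only [Real.log_mul, Real.log_rpow, Real.log_pow]
    push_cast
    linarith only [f1, f2, f8, f10]
  have m12 : (n : ℝ) ^ (-2 : ℝ) ≤ τ := by
    rw [hτ]
    refine le_of_log (by positivity) (by positivity) ?_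
    simp (disch := positivity) only [Real.log_mul, Real.log_rpow, Real.log_pow]
    push_cast
    linarith only [f1, f2, f7, f8]
  have key := e1_le (b := b) (C := 30 * b ^ 3) (δ := (n : ℝ) ^ (-(1390 * q)) * y ^ 3)
    (R3 := R3) h.bb m1 m2 m3 m4 m5 m6 m7 m8 m9 m10 m11 m12
  refine key.trans ?_
  have hCE : 0 < H694.CE b (30 * b ^ 3) := H694.CE_pos h.bb
  have hcl : Real.log (H694.CE b (30 * b ^ 3)) ≤ q / 1000 * Real.log n := hK.trans f6
  have c36 := log_c 36 (by norm_num)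
  have c3 := log_c 3 (by norm_num)
  have z1 : 3 * ((n : ℝ) ^ (-(1390 * q)) * y ^ 3) ≤ eC q n y := by
    unfold eC
    refine le_of_log (by positivity) (by positivity) ?_
    simp (disch := positivity) only [Real.log_mul, Real.log_rpow, Real.log_pow]
    push_cast
    linarith only [f1, f2, c3]
  have z2 : H694.CE b (30 * b ^ 3) * (36 * τ) ≤ eC q n y := by
    rw [hτ]
    unfold eC
    refine le_of_log (by positivity) (by positivity) ?_
    simp (disch := positivity) only [Real.log_mul, Real.log_rpow, Real.log_pow]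
    push_cast
    linarith only [f1, f2, c36, hcl]
  have z3 : 3 * ((n : ℝ) ^ (-(1366 * q)) * y ^ 3) ≤ eC q n y := by
    unfold eC
    refine le_of_log (by positivity) (by positivity) ?_
    simp (disch := positivity) only [Real.log_mul, Real.log_rpow, Real.log_pow]
    push_cast
    linarith only [f1, f2, c3]
  linarith only [z1, z2, z3, hR]

/-- the gap -/
lemma CW.gap (h : CW a0 b₁ q A b K n y V al s lam η) {kp ℓ : ℝ} (hkp : kp = (1 + al) / b)
    (hℓ : (n : ℝ) ^ (-(9 * q)) * y ≤ ℓ) :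
    (n : ℝ) ^ (-(145 * q)) ≤ kp ^ 2 * b ^ 2 * tB q n y / UC q n y ^ 2 -
      4 * (y * kp ^ 3 * b ^ 4) * (n : ℝ) ^ (-(200 * q)) / (ℓ / 2) -
      8 * ((n : ℝ) ^ (26 * q) * y ^ 2) * (n : ℝ) ^ (-(200 * q)) / (ℓ / 2) ^ 2 -
      3 * ((n : ℝ) ^ (-(145 * q)) * (ℓ / 2) / 12) / (ℓ / 2) := by
  obtain ⟨f1, f2, f3, f4, f5, f6, f7, f8, f9, f10, f11, f12⟩ := h.facts
  obtain ⟨p1, p2, p3, p4, p5⟩ := h.kp hkp
  obtain ⟨l1, l2⟩ := abs_le.1 h.nw.al_small
  obtain ⟨t1, t2, t3, t4, t5⟩ := h.tau_mon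
  obtain ⟨w1, w2, w3, w4, w5, w6, w7, w8⟩ := h.cmp
  have hn := h.nw.env.n0
  have hy := h.nw.env.y0
  have hb : 1 ≤ b := h.bb
  have hb0 : 0 < b := by linarith only [hb]
  have hℓ0 : 0 < ℓ := lt_of_lt_of_le (by positivity) hℓ
  have hℓ2 : (n : ℝ) ^ (-(9 * q)) * y / 2 ≤ ℓ / 2 := by linarith only [hℓ]
  have c8 := log_c 8 (by norm_num)
  have c2 := log_c 2 (by norm_num)
  have c16 := log_c 16 (by norm_num)
  refine gap_core p3 l1 l2 hb (by positivity) (by positivity) hy.le w1 t5.le (by positivity) rfl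
    ?_ ?_ ?_
  · unfold tB UC
    refine le_of_log (by positivity) (by positivity) ?_
    simp (disch := positivity) only [Real.log_mul, Real.log_rpow, Real.log_pow, Real.log_div]
    push_cast
    linarith only [f1, f2, c8, c16]
  · have h1 : 8 * (y * b * (n : ℝ) ^ (-(200 * q))) / (ℓ / 2) ≤
      8 * (y * b * (n : ℝ) ^ (-(200 * q))) / ((n : ℝ) ^ (-(9 * q)) * y / 2) := by gcongr
    refine h1.trans ?_
    refine le_of_log (by positivity) (by positivity) ?_
    simp (disch := positivity) only [Real.log_mul, Real.log_rpow, Real.log_div]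
    linarith only [f1, f2, f4, c8, c2]
  · have h1 : 8 * ((n : ℝ) ^ (26 * q) * y ^ 2) * (n : ℝ) ^ (-(200 * q)) / (ℓ / 2) ^ 2 ≤
      8 * ((n : ℝ) ^ (26 * q) * y ^ 2) * (n : ℝ) ^ (-(200 * q)) /
        ((n : ℝ) ^ (-(9 * q)) * y / 2) ^ 2 := by gcongr
    refine h1.trans ?_
    refine le_of_log (by positivity) (by positivity) ?_
    simp (disch := positivity) only [Real.log_mul, Real.log_rpow, Real.log_pow, Real.log_div]
    push_cast
    linarith only [f1, f2, c8, c2]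

/-- the region -/
lemma CW.region (h : CW a0 b₁ q A b K n y V al s lam η) {kp ℓ X3 : ℝ} (hkp : kp = (1 + al) / b)
    (hℓ : (n : ℝ) ^ (-(8 * q)) * y ≤ ℓ) (hX3 : 0 ≤ X3) (hreg : 384 * X3 ≤ y * ℓ) :
    2 * (3 * X3) * ((1 - (n : ℝ) ^ (-(200 * q))) * (ℓ / 2)) + 3 * (kp ^ 2 * (V - s ^ 2)) ≤
      y * kp ^ 3 * b ^ 4 * ((1 - (n : ℝ) ^ (-(200 * q))) * (ℓ / 2)) ^ 2 ∧
      (n : ℝ) ^ (-(200 * q)) ≤ 1 / 2 ∧ 16 * η ≤ (n : ℝ) ^ (-(200 * q)) := by
  obtain ⟨f1, f2, f3, f4, f5, f6, f7, f8, f9, f10, f11, f12⟩ := h.facts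
  obtain ⟨hAd, v1, v2⟩ := h.nw.adm
  obtain ⟨p1, p2, p3, p4, p5⟩ := h.kp hkp
  obtain ⟨l1, l2⟩ := abs_le.1 h.nw.al_small
  have hn := h.nw.env.n0
  have hy := h.nw.env.y0
  have hV := h.nw.env.V0
  have hη0 := h.nw.kw.η0
  have hb : 1 ≤ b := h.bb
  have hℓ0 : 0 < ℓ := lt_of_lt_of_le (by positivity) hℓ
  have c384 := log_c 384 (by norm_num)
  have c2 := log_c 2 (by norm_num)
  have c16 := log_c 16 (by norm_num)
  have hξ : (n : ℝ) ^ (-(200 * q)) ≤ 1 / 2 := by
    refine le_of_log (by positivity) (by positivity) ?_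
    simp (disch := positivity) only [Real.log_rpow, Real.log_div, Real.log_one]
    linarith only [f1, f2, c2]
  have hVl : 384 * V ≤ y * ((n : ℝ) ^ (-(8 * q)) * y) ^ 2 := by
    refine le_of_log (by positivity) (by positivity) ?_
    simp (disch := positivity) only [Real.log_mul, Real.log_rpow, Real.log_pow]
    push_cast
    linarith only [f1, f2, f10, c384]
  refine ⟨reg_core p3 l1 hb (by positivity) hξ (by positivity) p1.le p2
    (by linarith only [v1, hV]) hy.le (by positivity) ?_ ?_, hξ, ?_⟩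
  · have h1 := mul_le_mul_of_nonneg_right hreg hℓ0.le
    have e1 : 64 * (3 * X3 * (ℓ / 2)) = 384 * X3 * ℓ / 4 := by ring
    have e2 : y * (ℓ / 2) ^ 2 = y * ℓ * ℓ / 4 := by ring
    rw [e1, e2]
    linarith only [h1]
  · have h1 : y * ((n : ℝ) ^ (-(8 * q)) * y) ^ 2 ≤ y * ℓ ^ 2 := by gcongr
    have e2 : y * (ℓ / 2) ^ 2 = y * ℓ ^ 2 / 4 := by ring
    rw [e2]
    linarith only [h1, hVl, v2]
  · refine le_of_log (by positivity) (by positivity) ?_
    simp (disch := positivity) only [Real.log_mul, Real.log_rpow]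
    linarith only [f1, f2, f11, c16]

/-- the probability at the fine point -/
lemma CW.pbn (h : CW a0 b₁ q A b K n y V al s lam η) {ℓ k' : ℝ}
    (hℓ : (n : ℝ) ^ (-(9 * q)) * y ≤ ℓ) (hk : k' ≤ XC q n y) :
    H694.PBn (30 * b ^ 3) ((n : ℝ) ^ (-(145 * q))) ((n : ℝ) ^ (-(200 * q)))
      ((n : ℝ) ^ (-(145 * q)) * (ℓ / 2) / 12) (ℓ / 2) k' ((n : ℝ) ^ (-2 : ℝ)) (eC q n y) ≤
      (n : ℝ) ^ (-(1040 * q)) := by
  obtain ⟨f1, f2, f3, f4, f5, f6, f7, f8, f9, f10, f11, f12⟩ := h.facts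
  obtain ⟨w1, w2, w3, w4, w5, w6, w7, w8⟩ := h.cmp
  have hn := h.nw.env.n0
  have hy := h.nw.env.y0
  have hb : 1 ≤ b := h.bb
  have hb0 : 0 < b := by linarith only [hb]
  have hℓ0 : 0 < ℓ := lt_of_lt_of_le (by positivity) hℓ
  have hℓ2 : (n : ℝ) ^ (-(9 * q)) * y / 2 ≤ ℓ / 2 := by linarith only [hℓ]
  have c34 := log_c 34 (by norm_num)
  have c2 := log_c 2 (by norm_num)
  have c12 := log_c 12 (by norm_num)
  have c5 := log_c 5 (by norm_num)
  have c6 := log_c 6 (by norm_num)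
  have c30 := log_c 30 (by norm_num)
  have c30' : 0 ≤ Real.log 30 := Real.log_nonneg (by norm_num)
  unfold H694.PBn
  obtain ⟨P, hP⟩ : ∃ P, P = (n : ℝ) ^ (-(1190 * q)) := ⟨_, rfl⟩
  have hP0 : 0 < P := by
    rw [hP]
    positivity
  have a1 : 34 * k' / (((n : ℝ) ^ (-(200 * q))) ^ 2 * (ℓ / 2)) ≤ P := by
    have h1 : 34 * k' / (((n : ℝ) ^ (-(200 * q))) ^ 2 * (ℓ / 2)) ≤
        34 * XC q n y / (((n : ℝ) ^ (-(200 * q))) ^ 2 * (ℓ / 2)) := by
      gcongr
    have h2 : 34 * XC q n y / (((n : ℝ) ^ (-(200 * q))) ^ 2 * (ℓ / 2)) ≤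
        34 * XC q n y / (((n : ℝ) ^ (-(200 * q))) ^ 2 * ((n : ℝ) ^ (-(9 * q)) * y / 2)) := by
      gcongr
    refine (h1.trans h2).trans ?_
    rw [hP]
    unfold XC
    refine le_of_log (by positivity) (by positivity) ?_
    simp (disch := positivity) only [Real.log_mul, Real.log_rpow, Real.log_pow, Real.log_div]
    push_cast
    linarith only [f1, f2, c34, c2]
  have a2 : (n : ℝ) ^ (-2 : ℝ) ≤ P := by
    rw [hP]
    refine le_of_log (by positivity) (by positivity) ?_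
    simp (disch := positivity) only [Real.log_rpow]
    linarith only [f1, f2, f7, f8]
  have a3 : 5 * eC q n y / ((n : ℝ) ^ (-(145 * q)) * (ℓ / 2) / 12 * (ℓ / 2) ^ 2) ≤ P := by
    have h1 : 5 * eC q n y / ((n : ℝ) ^ (-(145 * q)) * (ℓ / 2) / 12 * (ℓ / 2) ^ 2) ≤
        5 * eC q n y / ((n : ℝ) ^ (-(145 * q)) * ((n : ℝ) ^ (-(9 * q)) * y / 2) / 12 *
          ((n : ℝ) ^ (-(9 * q)) * y / 2) ^ 2) := by
      gcongr
    refine h1.trans ?_
    rw [hP]
    unfold eC
    refine le_of_log (by positivity) (by positivity) ?_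
    simp (disch := positivity) only [Real.log_mul, Real.log_rpow, Real.log_pow, Real.log_div]
    push_cast
    linarith only [f1, f2, c5, c2, c12]
  have a4 : 1 ≤ (30 * b ^ 3) ^ 2 / (n : ℝ) ^ (-(145 * q)) := by
    refine le_of_log (by positivity) (by positivity) ?_
    simp (disch := positivity) only [Real.log_mul, Real.log_rpow, Real.log_pow, Real.log_div,
      Real.log_one]
    push_cast
    linarith only [f1, f2, f3, c30']
  calc (1 + (30 * b ^ 3) ^ 2 / (n : ℝ) ^ (-(145 * q))) *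
        (34 * k' / (((n : ℝ) ^ (-(200 * q))) ^ 2 * (ℓ / 2)) + (n : ℝ) ^ (-2 : ℝ) +
          5 * eC q n y / ((n : ℝ) ^ (-(145 * q)) * (ℓ / 2) / 12 * (ℓ / 2) ^ 2))
      ≤ (1 + (30 * b ^ 3) ^ 2 / (n : ℝ) ^ (-(145 * q))) * (P + P + P) :=
        mul_le_mul_of_nonneg_left (by linarith only [a1, a2, a3]) (by positivity)
    _ ≤ ((30 * b ^ 3) ^ 2 / (n : ℝ) ^ (-(145 * q)) + (30 * b ^ 3) ^ 2 /
        (n : ℝ) ^ (-(145 * q))) * (P + P + P) := by gcongr
    _ = 6 * ((30 * b ^ 3) ^ 2 / (n : ℝ) ^ (-(145 * q)) * P) := by ring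
    _ ≤ _ := by
        rw [hP]
        refine le_of_log (by positivity) (by positivity) ?_
        simp (disch := positivity) only [Real.log_mul, Real.log_rpow, Real.log_pow,
          Real.log_div]
        push_cast
        linarith only [f1, f2, f4, c6, c30]

/-- the coarse step -/
lemma CW.coarse (h : CW a0 b₁ q A b K n y V al s lam η) {ℓ : ℝ}
    (hℓ : (n : ℝ) ^ (-(9 * q)) * y ≤ ℓ) :
    √(UC q n y ^ 2 * (n : ℝ) ^ (-(1040 * q))) / (ℓ / 2) ≤ (n : ℝ) ^ (-(400 * q)) := by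
  obtain ⟨f1, f2, f3, f4, f5, f6, f7, f8, f9, f10, f11, f12⟩ := h.facts
  have hn := h.nw.env.n0
  have hy := h.nw.env.y0
  have hℓ0 : 0 < ℓ := lt_of_lt_of_le (by positivity) hℓ
  have hℓ2 : (n : ℝ) ^ (-(9 * q)) * y / 2 ≤ ℓ / 2 := by linarith only [hℓ]
  have c2 := log_c 2 (by norm_num)
  have h1 : √(UC q n y ^ 2 * (n : ℝ) ^ (-(1040 * q))) / (ℓ / 2) ≤
      √(UC q n y ^ 2 * (n : ℝ) ^ (-(1040 * q))) / ((n : ℝ) ^ (-(9 * q)) * y / 2) := by gcongr
  refine h1.trans ?_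
  unfold UC
  refine le_of_log (by positivity) (by positivity) ?_
  simp (disch := positivity) only [Real.log_mul, Real.log_rpow, Real.log_pow, Real.log_div,
    Real.log_sqrt]
  push_cast
  linarith only [f1, f2, c2]

end

/-! ### the a priori numbers -/

section

variable {a0 b₁ q A b K : ℝ} {n : ℕ} {y V al s lam η : ℝ}

lemma CW.Uq4 (h : CW a0 b₁ q A b K n y V al s lam η) {T : ℝ} (hT : tB q n y ≤ T) :
    0 < T ∧ 4 * Uq q n y T ≤ UC q n y := by
  obtain ⟨f1, f2, f3, f4, f5, f6, f7, f8, f9, f10, f11, f12⟩ := h.facts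
  obtain ⟨t1, t2, t3, t4, t5⟩ := h.tau_mon
  have hn := h.nw.env.n0
  have hy := h.nw.env.y0
  have hT0 : 0 < T := lt_of_lt_of_le t5 hT
  have c4 := log_c 4 (by norm_num)
  have c16 := log_c 16 (by norm_num)
  refine ⟨hT0, ?_⟩
  have h1 : Uq q n y T ≤ Uq q n y (tB q n y) := by
    unfold Uq
    have h2 : 0 < √(tB q n y) := Real.sqrt_pos.2 t5
    have h3 : √(tB q n y) ≤ √T := Real.sqrt_le_sqrt hT
    exact div_le_div_of_nonneg_left (by positivity) h2 h3
  refine (mul_le_mul_of_nonneg_left h1 (by norm_num)).trans ?_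
  unfold Uq UC tB
  refine le_of_log (by positivity) (by positivity) ?_
  simp (disch := positivity) only [Real.log_mul, Real.log_rpow, Real.log_pow, Real.log_div,
    Real.log_sqrt]
  push_cast
  linarith only [f1, f2, c4, c16]

lemma ex_ind_le {κ : Type} [Fintype κ] [DecidableEq κ] {μ : κ → Measure ℝ}
    [∀ k, IsProbabilityMeasure (μ k)] {w : (κ → ℝ) → ℝ} (hw : H646.Wt μ w) {f : (κ → ℝ) → ℝ}
    (hf : Measurable f) {c c' : ℝ} (hc : c ≤ c') :
    H646.ex μ w (H317.ind c' f) ≤ H646.ex μ w (H317.ind c f) := by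
  refine H615.ex_mono hw (H317.bm_ind hf c') (H317.bm_ind hf c) fun z => ?_
  unfold H317.ind
  split_ifs with h1 h2 h2
  · exact le_rfl
  · exact absurd (lt_of_le_of_lt hc h1) h2
  · exact zero_le_one
  · exact le_rfl

/-- **The numbers at the fine points.** -/
theorem CW.nums (h : CW a0 b₁ q A b K n y V al s lam η)
    (hap : ∀ T, 0 < T → T ≤ 1 → ∀ u ∈ Icc (0 : ℝ) 1, ApN q 2 (lawOf n b y V al s lam η) T u) :
    H694.Nums (lawOf n b y V al s lam η) (1 - tB q n y) (UC q n y) ((n : ℝ) ^ (-1 : ℝ))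
      ((n : ℝ) ^ (-2 : ℝ)) ∧
    C3Amp.TailC (lawOf n b y V al s lam η) (1 - tB q n y) (UC q n y) ((n : ℝ) ^ (-2 : ℝ)) := by
  have hn := h.nw.env.n0
  have hy := h.nw.env.y0
  have hη0 := h.nw.kw.η0
  obtain ⟨k1, k2, k3, k4, k5, k6, k7, k8⟩ := h.nw.bd
  obtain ⟨hA, a1, a2⟩ := h.nw.adm
  have key : ∀ t u : ℝ, 0 ≤ t → t ≤ 1 - tB q n y → 0 ≤ u → u ≤ 1 →
      ApN q 2 (lawOf n b y V al s lam η) (1 - t) u ∧ 0 < Uq q n y (1 - t) ∧
        4 * Uq q n y (1 - t) ≤ UC q n y := by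
    intro t u ht0 ht hu0 hu1
    obtain ⟨hT0, g1⟩ := h.Uq4 (T := 1 - t) (by linarith)
    exact ⟨hap (1 - t) hT0 (by linarith) u ⟨hu0, hu1⟩, Uq_pos hn hy hT0, g1⟩
  refine ⟨⟨fun S t u ht0 ht hu0 hu1 => ?_, fun S t u ht0 ht hu0 hu1 => ?_,
    fun t u ht0 ht hu0 hu1 => ?_, fun S t u ht0 ht hu0 hu1 => ?_⟩,
    fun S t u ht0 ht hu0 hu1 => ?_⟩
  · obtain ⟨g1, g2, g3⟩ := key t u ht0 ht hu0 hu1
    have e : 1 - (1 - t) = t := by ring
    have g := g1.m2 S
    rw [e] at g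
    have m := mom_Q hA.lam0 hA.η0 hA.n0 S t u 2
    have h8 : (1 + (lawOf n b y V al s lam η).η) ^ (4 * 2) ≤ 4 ^ 4 := by
      calc (1 + (lawOf n b y V al s lam η).η) ^ (4 * 2) ≤ 2 ^ (4 * 2) :=
            pow_le_pow_left₀ (by linarith [hA.η0])
              (by show 1 + η ≤ 2; linarith) _
        _ = 4 ^ 4 := by norm_num
    calc (lawOf n b y V al s lam η).ex' t u (fun z => (lawOf n b y V al s lam η).Q S t u z ^ 4)
        ≤ (1 + (lawOf n b y V al s lam η).η) ^ (4 * 2) *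
          (lawOf n b y V al s lam η).ex' t u
            (fun z => CC (lawOf n b y V al s lam η) S t u z ^ 2) := m
      _ ≤ 4 ^ 4 * Uq q n y (1 - t) ^ 4 := by
          refine mul_le_mul h8 g ?_ (by positivity)
          exact H615.ex_nonneg (H412.wtL hA.lam0 hA.η0 t u) fun z => sq_nonneg _
      _ = (4 * Uq q n y (1 - t)) ^ 4 := by ring
      _ ≤ _ := pow_le_pow_left₀ (by positivity) g3 4
  · obtain ⟨g1, g2, g3⟩ := key t u ht0 ht hu0 hu1
    have e : 1 - (1 - t) = t := by ring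
    have g := g1.m1 S
    rw [e] at g
    exact g.trans (pow_le_pow_left₀ g2.le (by linarith) 2)
  · obtain ⟨g1, g2, g3⟩ := key t u ht0 ht hu0 hu1
    have e : 1 - (1 - t) = t := by ring
    have g := g1.ps
    rw [e] at g
    refine g.trans (le_of_eq ?_)
    show (n : ℝ) ^ (-2 : ℝ) = ((n : ℝ) ^ (-1 : ℝ)) ^ 2
    rw [← Real.rpow_natCast, ← Real.rpow_mul hn.le]
    norm_num
  · obtain ⟨g1, g2, g3⟩ := key t u ht0 ht hu0 hu1
    have e : 1 - (1 - t) = t := by ring
    have g := g1.tQ S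
    rw [e] at g
    exact (ex_ind_le (H412.wtL hA.lam0 hA.η0 t u) (bm_Q hA.lam0 hA.η0 S t u).meas
      (show Uq q n y (1 - t) ≤ UC q n y by linarith)).trans g
  · obtain ⟨g1, g2, g3⟩ := key t u ht0 ht hu0 hu1
    have e : 1 - (1 - t) = t := by ring
    have g := g1.tC S
    rw [e] at g
    exact (ex_ind_le (H412.wtL hA.lam0 hA.η0 t u) (bm_CC hA.lam0 hA.η0 S t u).meas
      (show Uq q n y (1 - t) ^ 2 ≤ UC q n y ^ 2 from
        pow_le_pow_left₀ g2.le (by linarith) 2)).trans g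

/-- **One `n`: the exclusion of the big root, any level.** -/
theorem br_kw (h : CW a0 b₁ q A b K n y V al s lam η)
    (hK1 : Real.log (H694.CE b (30 * b ^ 3)) ≤ K) (hK2 : Real.log (C3Amp.KR b) ≤ K)
    (hap : ∀ T, 0 < T → T ≤ 1 → ∀ u ∈ Icc (0 : ℝ) 1, ApN q 2 (lawOf n b y V al s lam η) T u)
    {ℓ X3 : ℝ} (hℓ : (n : ℝ) ^ (-(8 * q)) * y ≤ ℓ) (hX3 : 0 ≤ X3) (hal : al ≤ X3)
    (hrg : 384 * X3 ≤ y * ℓ)
    {T u : ℝ} (hT : 4 * tB q n y ≤ T) (hT1 : T ≤ 1) (hu0 : 0 ≤ u) (hu : u ≤ 1 - dl q n)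
    {m : ℕ} (hm : H470.mm q n y ≤ m + 1) :
    (lawOf n b y V al s lam η).ex' (1 - T) u
      (H317.ind ℓ ((lawOf n b y V al s lam η).Q (Sn n m) (1 - T) u)) ≤
      (n : ℝ) ^ (-(400 * q)) := by
  obtain ⟨p1, p2, p3, p4, p5⟩ := h.kp (kp := (1 + al) / b) rfl
  obtain ⟨r1, r2, r3⟩ := h.region (kp := (1 + al) / b) rfl hℓ hX3 hrg
  have hn := h.nw.env.n0
  have hy := h.nw.env.y0
  have hℓ9 : (n : ℝ) ^ (-(9 * q)) * y ≤ ℓ := by
    refine le_trans ?_ hℓ
    have h1 : (n : ℝ) ^ (-(9 * q)) ≤ (n : ℝ) ^ (-(8 * q)) :=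
      Real.rpow_le_rpow_of_exponent_le (by exact_mod_cast h.nw.kw.n1.le) (by linarith [h.nw.q0])
    exact mul_le_mul_of_nonneg_right h1 hy.le
  have hgap := h.gap (kp := (1 + al) / b) rfl hℓ9
  obtain ⟨g1, g2, g3, g4, g5⟩ := h.small
  obtain ⟨k1, k2, k3, k4, k5, k6, k7, k8⟩ := h.nw.bd
  obtain ⟨hAd, v1, v2⟩ := h.nw.adm
  obtain ⟨t1, t2, t3, t4, t5⟩ := h.tau_mon
  obtain ⟨m1, m2, m3, m4, m5, m6, m7, m8, m9⟩ := h.mm
  obtain ⟨w1, w2, w3, w4, w5, w6, w7, w8⟩ := h.cmp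
  obtain ⟨hN, hC⟩ := h.nums hap
  have hV := h.nw.env.V0
  have hs := h.nw.kw.s0
  have hη0 := h.nw.kw.η0
  have hl := h.nw.kw.l0
  have hb : 1 ≤ b := h.bb
  have hnn : 0 < n := by exact_mod_cast hn
  have hℓ0 : 0 < ℓ := lt_of_lt_of_le (by positivity) hℓ
  have hdl0 : 0 < dl q n := Real.rpow_pos_of_pos hn _
  have hdl1 : dl q n ≤ 1 := by linarith
  have hb2 : 1 ≤ b ^ 2 := one_le_pow₀ hb
  have hvU : V - s ^ 2 ≤ b ^ 2 * UC q n y :=
    calc V - s ^ 2 ≤ 1 * UC q n y := by linarith only [v2, w4]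
      _ ≤ b ^ 2 * UC q n y := mul_le_mul_of_nonneg_right hb2 w1.le
  have hx2 : y ^ 2 * (b ^ 2 + (V - s ^ 2)) ≤ 1 / 4 := by
    have h1 : y ^ 2 * (V - s ^ 2) ≤ 1 * (1 / 1000) :=
      mul_le_mul (pow_le_one₀ hy.le (by linarith only [k1])) (by linarith only [v2, k2])
        (by linarith only [v1, hV]) zero_le_one
    have e : y ^ 2 * (b ^ 2 + (V - s ^ 2)) = y ^ 2 * b ^ 2 + y ^ 2 * (V - s ^ 2) := by ring
    linarith only [h1, e, k7]
  have he1n := h.e1n hK1 (h.r3n hK2)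
  obtain ⟨t', ht', u', hu', m', hm', key⟩ := C3Amp.br_n3 (L := lawOf n b y V al s lam η) hAd hη0
    (by show η ≤ 1 / 2; linarith only [k3]) hs.ne' hy
    (by show y < 1; linarith only [k1]) (r0 := H615.rq b y al) (kp := (1 + al) / b) p4
    (cc_KW rfl) p1.le p2 p5 hb hx2 w6 (m1 := mCA q n y) (m2 := mCB q n y) m6 m3 m7
    (q0 := 1 - 4 * tB q n y) (q1 := 1 - 3 * tB q n y) (p0 := 1 - 2 * tB q n y)
    (p1 := 1 - tB q n y) (u0 := 1 - dl q n) (u1 := 1 - dl q n / 2)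
    (by linarith only [t1]) (by linarith only [t5]) (by linarith only [t5])
    (by linarith only [hdl1]) (by linarith only [hdl0]) (by linarith only [hdl0])
    (dt := tB q n y) t5 (by linarith only) (by linarith only)
    (U := UC q n y) (g := lam / (s ^ 2 * n)) (p := (n : ℝ) ^ (-1 : ℝ))
    (δ := (n : ℝ) ^ (-(1390 * q)) * y ^ 3) (T := 4 * tB q n y)
    (ee := (n : ℝ) ^ (-(1483 * q)))
    (pR := (n : ℝ) ^ (-2 : ℝ)) (pC := (n : ℝ) ^ (-2 : ℝ)) (ξ := (n : ℝ) ^ (-(200 * q)))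
    (ηt := (n : ℝ) ^ (-(145 * q)) * (ℓ / 2) / 12) (Lc := ℓ / 2)
    (γ := (n : ℝ) ^ (-(145 * q))) (τm := (n : ℝ) ^ (26 * q) * y ^ 2)
    (τn := 3 * X3) (e := eC q n y) w1 w2 w3
    (by linarith only) hvU
    (fun m hm t ht => (h.tau rfl hX3 hal (Finset.mem_Icc.1 hm).2 ht.1
      (by linarith only [ht.2, t5])).1) w5
    (fun m hm t ht => (h.tau rfl hX3 hal (Finset.mem_Icc.1 hm).2 ht.1
      (by linarith only [ht.2, t5])).2)
    (by positivity) le_rfl (by positivity) (by positivity) hN hC (by positivity)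
    (Real.rpow_le_one_of_one_le_of_nonpos (by exact_mod_cast h.nw.kw.n1.le) (by linarith [h.nw.q0]))
    (by positivity) r3 r2 (by positivity) r1 (by positivity)
    (by
      have e1 : (1 - 2 * tB q n y) - (1 - 3 * tB q n y) = tB q n y := by ring
      rw [e1]
      exact hgap) w7.le he1n
  obtain ⟨hm1, hm2⟩ := Finset.mem_Icc.1 hm'
  have hpb := key.trans (h.pbn hℓ9 g4)
  have hu'1 : u' ≤ 1 := by linarith only [hu'.2, hdl0]
  have hu'0 : 0 ≤ u' := by linarith only [hu'.1, hdl1]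
  have ht'1 : t' ≤ 1 - tB q n y := by linarith only [ht'.2, t5]
  have ht'0 : 0 ≤ t' := by linarith only [ht'.1, t1]
  have hqq := qq_nums hAd hN (Sn n m') ht'0 ht'1 hu'0 hu'1
  have hmm : m' ≤ m := by omega
  have hco := H762.coarse_ind (L := lawOf n b y V al s lam η) (S := Sn n m) (S' := Sn n m')
    (t := 1 - T) (t' := t') (u := u) (u' := u') hAd.lam0 hAd.η0 hAd.vp0 hnn
    (H643.Sn_anti hmm) (by linarith only [hT1]) (by linarith only [ht'.1, hT])
    (by linarith only [ht'1, t5]) hu0 (hu.trans hu'.1) hu'1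
    (ℓ := ℓ / 2) (q := UC q n y ^ 2) (p := (n : ℝ) ^ (-(1040 * q)))
    (by positivity) hqq (by rw [H762.big_eq]; exact hpb)
  rw [show 2 * (ℓ / 2) = ℓ by ring] at hco
  exact hco.trans (h.coarse hℓ9)

end

/-! ### eventually -/

/-- the window, eventually -/
theorem cw_ev {a0 b₁ q A b : ℝ} (K : ℝ) (hb : 1 < b) (hA : 1 ≤ A) (hq : 0 < q)
    (hb₁ : 10000 * q ≤ b₁) (ha0 : a0 ≤ 1 / 6) :
    ∀ᶠ n : ℕ in atTop, ∀ y V al s lam η : ℝ, KW a0 b₁ q A b n y V al s lam η →
      CW a0 b₁ q A b K n y V al s lam η ∧ ∀ T, 0 < T → T ≤ 1 → ∀ u ∈ Icc (0 : ℝ) 1,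
        ApN q 2 (lawOf n b y V al s lam η) T u := by
  have hb0 : 0 < b := by linarith
  have hb10 : 0 < b - 1 := by linarith
  filter_upwards [apn_ev (a0 := a0) (b₁ := b₁) 2 hq hb0 hA ha0 (by linarith : 100 * q < b₁),
    ev_log (θ := q / 1000) (by positivity) K,
    ev_log (θ := q / 1000) (by positivity) (-Real.log (b - 1))] with n h1 h2 h3
  intro y V al s lam η hkw
  obtain ⟨hw, hap⟩ := h1 y V al s lam η hkw
  obtain ⟨f1, f2, f3, f4, f5, f6, f7, f8, f9, f10, f11, f12, f13, f14⟩ := hw.facts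
  have hn := hw.env.n0
  have hy := hw.env.y0
  have hL := hw.env.L1
  have m2 : 10000 * q * Real.log n ≤ b₁ * Real.log n :=
    mul_le_mul_of_nonneg_right hb₁ (by linarith)
  have yu := hw.env.yu
  have c2 : 0 ≤ Real.log 2 := Real.log_nonneg (by norm_num)
  have c2' := log_c 2 (by norm_num)
  refine ⟨⟨hw, hb₁, h2, hb.le, ?_, ?_⟩, hap⟩
  · refine (le_abs_self al).trans (hw.al_abs.trans ?_)
    refine le_of_log (by positivity) hb10 ?_
    simp (disch := positivity) only [Real.log_mul, Real.log_rpow, Real.log_pow]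
    push_cast
    linarith only [f1, m2, yu, h3]
  · refine le_of_log (by positivity) (by positivity) ?_
    simp (disch := positivity) only [Real.log_mul, Real.log_div, Real.log_one]
    linarith only [f1, f2, f3, m2, yu, c2']

/-- **(P2) of S3: the exclusion of the big root at the level `C1 y`.** -/
theorem brC {b : ℝ} (hb : 1 < b) {Ca : ℝ} (hCa : 1 ≤ Ca) : ∃ C1 : ℝ, 0 < C1 ∧
    ∀ {a0 b₁ q A : ℝ}, 0 < q → a0 ≤ 1 / 6 → 10000 * q ≤ b₁ → 1 ≤ A →
    ∀ᶠ n : ℕ in atTop, ∀ y V al s lam η : ℝ, KW a0 b₁ q A b n y V al s lam η →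
      al ≤ Ca * y ^ 2 → ∀ T ∈ Icc ((n : ℝ) ^ (-(70 * q)) * y ^ 2 / 4) 1,
      ∀ u ∈ Icc (0 : ℝ) (1 - (n : ℝ) ^ (-(80 * q))), ∀ m : ℕ,
      ⌈(n : ℝ) ^ (1 - 110 * q) * y ^ 2⌉₊ ≤ m + 1 →
      (lawOf n b y V al s lam η).ex' (1 - T) u (H317.ind (C1 * y)
        ((lawOf n b y V al s lam η).Q (Sn n m) (1 - T) u)) ≤ (n : ℝ) ^ (-(400 * q)) := by
  refine ⟨384 * Ca, by positivity, ?_⟩
  intro a0 b₁ q A hq ha0 hb₁ hA
  obtain ⟨K, hK⟩ : ∃ K, K = |Real.log (H694.CE b (30 * b ^ 3))| + |Real.log (C3Amp.KR b)| :=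
    ⟨_, rfl⟩
  have k3 := abs_nonneg (Real.log (H694.CE b (30 * b ^ 3)))
  have k4 := abs_nonneg (Real.log (C3Amp.KR b))
  have l3 := le_abs_self (Real.log (H694.CE b (30 * b ^ 3)))
  have l4 := le_abs_self (Real.log (C3Amp.KR b))
  filter_upwards [cw_ev (a0 := a0) K hb hA hq hb₁ ha0, eventually_ge_atTop 1] with n h1 hn1
  intro y V al s lam η hkw hal T hT u hu m hm
  obtain ⟨hw, hap⟩ := h1 y V al s lam η hkw
  have hy := hkw.y0
  have hn1' : (1 : ℝ) ≤ n := by exact_mod_cast hn1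
  refine br_kw hw (by linarith) (by linarith) hap (X3 := Ca * y ^ 2) ?_ (by positivity) hal ?_ ?_
    hT.2 hu.1 hu.2 hm
  · have h2 : (n : ℝ) ^ (-(8 * q)) ≤ 1 :=
      Real.rpow_le_one_of_one_le_of_nonpos hn1' (by linarith)
    have h3 : (n : ℝ) ^ (-(8 * q)) * y ≤ 1 * y := mul_le_mul_of_nonneg_right h2 hy.le
    have h4 : 1 * y ≤ 384 * Ca * y := mul_le_mul_of_nonneg_right (by linarith) hy.le
    exact h3.trans h4
  · exact le_of_eq (by ring)
  · unfold tB
    linarith [hT.1]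

/-- **The exclusion of the big root on `KW`** (`BRnE`). -/
theorem brE {a0 b₁ q A b : ℝ} (hb : 1 < b) (hA : 1 ≤ A) (hq : 0 < q)
    (hb₁ : 10000 * q ≤ b₁) (ha0 : a0 ≤ 1 / 6) :
    ∀ᶠ n : ℕ in atTop, ∀ y V al s lam η : ℝ, KW a0 b₁ q A b n y V al s lam η →
      al ≤ A * ((n : ℝ) ^ (-(10 * q)) * y ^ 2) →
      ∀ T ∈ Icc ((n : ℝ) ^ (-(70 * q)) * y ^ 2 / 4) 1,
      ∀ u ∈ Icc (0 : ℝ) (1 - (n : ℝ) ^ (-(80 * q))), ∀ m : ℕ,
      ⌈(n : ℝ) ^ (1 - 110 * q) * y ^ 2⌉₊ ≤ m + 1 →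
      (lawOf n b y V al s lam η).ex' (1 - T) u (H317.ind ((n : ℝ) ^ (-(8 * q)) * y)
        ((lawOf n b y V al s lam η).Q (Sn n m) (1 - T) u)) ≤ (n : ℝ) ^ (-(400 * q)) := by
  obtain ⟨K, hK⟩ : ∃ K, K = |Real.log (H694.CE b (30 * b ^ 3))| + |Real.log (C3Amp.KR b)| :=
    ⟨_, rfl⟩
  have k3 := abs_nonneg (Real.log (H694.CE b (30 * b ^ 3)))
  have k4 := abs_nonneg (Real.log (C3Amp.KR b))
  have l3 := le_abs_self (Real.log (H694.CE b (30 * b ^ 3)))
  have l4 := le_abs_self (Real.log (C3Amp.KR b))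
  filter_upwards [cw_ev (a0 := a0) K hb hA hq hb₁ ha0] with n h1
  intro y V al s lam η hkw hal T hT u hu m hm
  obtain ⟨hw, hap⟩ := h1 y V al s lam η hkw
  obtain ⟨f1, f2, f3, f4, f5, f6, f7, f8, f9, f10, f11, f12⟩ := hw.facts
  have hy := hkw.y0
  have hn := hw.nw.env.n0
  have hA0 : 0 < A := by linarith
  have c384 := log_c 384 (by norm_num)
  refine br_kw hw (by linarith) (by linarith) hap (X3 := A * ((n : ℝ) ^ (-(10 * q)) * y ^ 2))
    le_rfl (by positivity) hal ?_ ?_ hT.2 hu.1 hu.2 hm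
  · refine le_of_log (by positivity) (by positivity) ?_
    simp (disch := positivity) only [Real.log_mul, Real.log_rpow, Real.log_pow]
    push_cast
    linarith only [f1, f2, f5, c384]
  · unfold tB
    linarith [hT.1]

end Vale.Agent.P146.H516.BC
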