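import Vale.Agent.P146.H516.BrLcN
import Vale.Agent.P146.H498.D3
import Vale.Agent.P146.H762.CoarseS

/-!
# P146, the exclusion of the big root on the zone `Z2` of LC
-/

open MeasureTheory ProbabilityTheory Filter Set

namespace Vale.Agent.P146.H516.Br

open Vale.Agent.P146.H418 Vale.Agent.P146.H529 Vale.Agent.P146.H470 Vale.Agent.P146.H412
  Vale.Agent.P146.H75 Vale.Agent.P146.H516

set_option linter.unusedSectionVars false

/-! ### the numbers of the exclusion of the big root -/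

/-- the final share of the plain field -/
noncomputable def uB (q : ℝ) (n : ℕ) (y V : ℝ) : ℝ := max (1 / 2) (1 - (n : ℝ) ^ (-q) * y ^ 4 / V)

section

variable {b₁ b₀ q k ce cl A κ0 b K : ℝ} {n : ℕ} {y V a : ℝ}

lemma BW.uB_mem (h : BW b₁ b₀ q k ce cl A κ0 b K n y V a) :
    1 / 2 ≤ uB q n y V ∧ uB q n y V < 1 ∧
      (n : ℝ) ^ (-(2 * q)) * y ^ 5 ≤
        (V - sL k n y ^ 2) * ((1 + uB q n y V) / 2 - uB q n y V) := by
  obtain ⟨f1, f2, f3, f4, f5, f6, f7, f8, f9, f10, f11, f12, f13, f14, f15, f16, f17, f18, f19,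
    f20, f21⟩ := h.facts
  obtain ⟨hAd, v1, v2⟩ := h.adm
  have hn := h.n0
  have hy := h.y0
  have hV := h.V0
  have e0 : 0 < (n : ℝ) ^ (-q) * y ^ 4 / V := by positivity
  refine ⟨le_max_left _ _, max_lt (by norm_num) (by linarith), ?_⟩
  have e1 : (1 + uB q n y V) / 2 - uB q n y V = (1 - uB q n y V) / 2 := by ring
  rw [e1]
  have c8 := log_c 8 (by norm_num)
  have c4 := log_c 4 (by norm_num)
  have g1 : (n : ℝ) ^ (-(2 * q)) * y ^ 5 ≤ V / 8 := by
    refine le_of_log (by positivity) (by positivity) ?_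
    simp (disch := positivity) only [Real.log_mul, Real.log_rpow, Real.log_pow, Real.log_div]
    push_cast
    linarith
  have g2 : (n : ℝ) ^ (-(2 * q)) * y ^ 5 ≤ (n : ℝ) ^ (-q) * y ^ 4 / 4 := by
    refine le_of_log (by positivity) (by positivity) ?_
    simp (disch := positivity) only [Real.log_mul, Real.log_rpow, Real.log_pow, Real.log_div]
    push_cast
    linarith
  have g3 : min (1 / 2) ((n : ℝ) ^ (-q) * y ^ 4 / V) ≤ 1 - uB q n y V := by
    unfold uB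
    rcases le_total (1 / 2 : ℝ) (1 - (n : ℝ) ^ (-q) * y ^ 4 / V) with h1 | h1
    · rw [max_eq_right h1]
      refine (min_le_right _ _).trans (by linarith)
    · rw [max_eq_left h1]
      refine (min_le_left _ _).trans (by norm_num)
  have g4 : (V / 2) * (min (1 / 2) ((n : ℝ) ^ (-q) * y ^ 4 / V) / 2) ≤
      (V - sL k n y ^ 2) * ((1 - uB q n y V) / 2) := by
    have h1 : 0 ≤ min (1 / 2) ((n : ℝ) ^ (-q) * y ^ 4 / V) := le_min (by norm_num) e0.le
    have h2 : 0 ≤ V - sL k n y ^ 2 := by linarith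
    gcongr
  refine le_trans ?_ g4
  rcases le_total (1 / 2 : ℝ) ((n : ℝ) ^ (-q) * y ^ 4 / V) with h1 | h1
  · rw [min_eq_left h1]
    linarith
  · rw [min_eq_right h1]
    have : V / 2 * ((n : ℝ) ^ (-q) * y ^ 4 / V / 2) = (n : ℝ) ^ (-q) * y ^ 4 / 4 := by
      field_simp
      norm_num
    rw [this]
    exact g2

/-- the numbers which are at most `n ^ (-2/5)` -/
lemma BW.small (h : BW b₁ b₀ q k ce cl A κ0 b K n y V a) :
    1 / √(mA q n y : ℝ) ≤ (n : ℝ) ^ (-(2 / 5) : ℝ) ∧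
      H694.jN (mA q n y) (mB q n y) ≤ (n : ℝ) ^ (-(2 / 5) : ℝ) ∧
      (LL k ce cl b n y V a).lam / ((LL k ce cl b n y V a).s ^ 2 * (LL k ce cl b n y V a).n) ≤
        (n : ℝ) ^ (-(2 / 5) : ℝ) ∧
      H694.kN (LL k ce cl b n y V a) (UB q n y) ((1 + uB q n y V) / 2 - uB q n y V) ≤
        (n : ℝ) ^ (-(2 / 5) : ℝ) ∧ etaL ce n ≤ (n : ℝ) ^ (-(1 / 10) : ℝ) := by
  obtain ⟨f1, f2, f3, f4, f5, f6, f7, f8, f9, f10, f11, f12, f13, f14, f15, f16, f17, f18, f19,
    f20, f21⟩ := h.facts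
  obtain ⟨m1, m2, m3, m4, m5, m6, m7, m8⟩ := h.mm
  obtain ⟨s1, s2, s3⟩ := h.s_sq
  obtain ⟨u1, u2, u3⟩ := h.uB_mem
  have hn := h.n0
  have hy := h.y0
  have c4 := log_c 4 (by norm_num)
  have c2 := log_c 2 (by norm_num)
  have c14 := log_c 14 (by norm_num)
  have hM : 0 < MB q n y := by linarith
  have hMl : Real.log (MB q n y) = (1 - 41 * q) * Real.log n + 2 * Real.log y := by
    unfold MB
    simp (disch := positivity) only [Real.log_mul, Real.log_rpow, Real.log_pow]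
    push_cast
    ring
  refine ⟨?_, ?_, ?_, ?_, ?_⟩
  · have g1 : 1 / √(mA q n y : ℝ) ≤ 1 / √(MB q n y / 4) :=
      one_div_le_one_div_of_le (Real.sqrt_pos.2 (by positivity)) (Real.sqrt_le_sqrt m2)
    refine g1.trans ?_
    refine le_of_log (by positivity) (by positivity) ?_
    simp (disch := positivity) only [Real.log_div, Real.log_one, Real.log_sqrt, Real.log_rpow]
    rw [hMl]
    linarith
  · unfold H694.jN
    have g1 : √(14 / ((mB q n y : ℝ) - mA q n y + 1)) ≤ √(14 / (MB q n y / 2)) :=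
      Real.sqrt_le_sqrt (by gcongr)
    refine g1.trans ?_
    refine le_of_log (by positivity) (by positivity) ?_
    simp (disch := positivity) only [Real.log_div, Real.log_sqrt, Real.log_rpow]
    rw [hMl]
    linarith
  · show lamL cl ce n y / (sL k n y ^ 2 * n) ≤ _
    rw [s2]
    unfold lamL
    refine le_of_log (by positivity) (by positivity) ?_
    simp (disch := positivity) only [Real.log_div, Real.log_mul, Real.log_pow, Real.log_rpow]
    push_cast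
    linarith
  · unfold H694.kN
    have g1 : √(14 * UB q n y / (n * y ^ 2 * (V - sL k n y ^ 2) *
        ((1 + uB q n y V) / 2 - uB q n y V))) ≤
        √(14 * UB q n y / (n * y ^ 2 * ((n : ℝ) ^ (-(2 * q)) * y ^ 5))) := by
      have hU : 0 < UB q n y := by
        unfold UB
        positivity
      refine Real.sqrt_le_sqrt ?_
      rw [mul_assoc ((n : ℝ) * y ^ 2)]
      gcongr
    refine (show H694.kN (LL k ce cl b n y V a) (UB q n y)
      ((1 + uB q n y V) / 2 - uB q n y V) ≤ _ from g1).trans ?_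
    unfold UB
    refine le_of_log (by positivity) (by positivity) ?_
    simp (disch := positivity) only [Real.log_div, Real.log_mul, Real.log_pow, Real.log_rpow,
      Real.log_sqrt]
    push_cast
    linarith
  · unfold etaL
    refine le_of_log (by positivity) (by positivity) ?_
    simp (disch := positivity) only [Real.log_rpow]
    linarith

end

/-! ### the numbers of the exclusion -/

section

variable {b₁ b₀ q k ce cl A κ0 b K : ℝ} {n : ℕ} {y V a : ℝ}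

/-- `E1n` from small numbers -/
lemma e1n_le {b C U hh g v η x k p j δ T pR R3 N : ℝ} (hb : 1 ≤ b) (hU0 : 0 < U) (hU1 : U ≤ 1)
    (hN0 : 0 < N) (hN1 : N ≤ 1) (hh0 : 0 ≤ hh) (hh1 : hh ≤ N ^ 4) (hg0 : 0 ≤ g) (hg : g ≤ N ^ 4)
    (hv : v ≤ 1) (hη0 : 0 ≤ η) (hη : η ≤ N) (hx1 : x ≤ 1)
    (hk0 : 0 ≤ k) (hk : k ≤ N ^ 4) (hp : p ≤ N ^ 4) (hj0 : 0 ≤ j)
    (hj : j ≤ N ^ 4) (hδ : δ = N ^ 2) (hpR : pR ≤ N ^ 4) :
    H694.E1n b C U hh g v η x k p j δ T pR R3 ≤
      N + H694.CE b C * (12 * N + x * (T * U ^ 2 + v * U + v ^ 2)) + R3 := by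
  have hCE := (H694.CE_pos (C := C) hb).le
  unfold H694.E1n
  subst hδ
  have hN4 : N ^ 4 ≤ N := pow_le_of_le_one hN0.le hN1 (by norm_num)
  have hN2 : N ^ 2 ≤ N := pow_le_of_le_one hN0.le hN1 (by norm_num)
  have hN40 : 0 < N ^ 4 := by positivity
  have a1 : U * (hh + g) ≤ 2 * N := by
    calc U * (hh + g) ≤ 1 * (N ^ 4 + N ^ 4) := by gcongr
      _ ≤ 2 * N := by linarith
  have a2 : v * η ≤ N := by
    calc v * η ≤ 1 * N := by gcongr
      _ = N := one_mul N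
  have a3 : x * η * U ^ 2 ≤ N := by
    calc x * η * U ^ 2 ≤ 1 * N * 1 ^ 2 := by gcongr
      _ = N := by ring
  have a4 : x * U * k ≤ N := by
    calc x * U * k ≤ 1 * 1 * N ^ 4 := by gcongr
      _ ≤ N := by linarith
  have a5 : U * j ^ 2 ≤ N := by
    have hj1 : j ≤ 1 := by linarith
    have : j ^ 2 ≤ N := by nlinarith
    calc U * j ^ 2 ≤ 1 * N := by gcongr
      _ = N := one_mul N
  have a6 : U ^ 4 * (j + hh) / N ^ 2 ≤ 2 * N := by
    rw [div_le_iff₀ (by positivity)]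
    have h1 : U ^ 4 ≤ 1 := pow_le_one₀ hU0.le hU1
    calc U ^ 4 * (j + hh) ≤ 1 * (N ^ 4 + N ^ 4) := by gcongr
      _ = 2 * (N ^ 2 * N ^ 2) := by ring
      _ ≤ 2 * (N * N ^ 2) := by gcongr
      _ = 2 * N * N ^ 2 := by ring
  have h1 := mul_le_mul_of_nonneg_left (show U * (hh + g) + v * η + x * η * U ^ 2 + x * U * k +
    p + U * j ^ 2 + U ^ 4 * (j + hh) / N ^ 2 + x * (T * U ^ 2 + v * U + v ^ 2) + pR ≤
    12 * N + x * (T * U ^ 2 + v * U + v ^ 2) by linarith) hCE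
  linarith

/-- the constant of `E1n` -/
noncomputable def cE (b : ℝ) : ℝ := H694.CE b (30 * b ^ 3)

/-- the size of the error of the cubic equation -/
noncomputable def eB (q : ℝ) (n : ℕ) (y : ℝ) : ℝ := (n : ℝ) ^ (13 * q) * y ^ (7 / 2 : ℝ)

lemma BW.e1n (h : BW b₁ b₀ q k ce cl A κ0 b K n y V a) (hK : Real.log (cE b) ≤ K) {R3 : ℝ}
    (hR : R3 ≤ (n : ℝ) ^ (12 * q) * y ^ (7 / 2 : ℝ)) {p pR : ℝ}
    (hp : p ≤ (n : ℝ) ^ (-(2 / 5) : ℝ)) (hpR : pR ≤ (n : ℝ) ^ (-(2 / 5) : ℝ)) :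
    H694.E1n b (30 * b ^ 3) (UB q n y) (1 / √(mA q n y : ℝ))
      (lamL cl ce n y / (sL k n y ^ 2 * n)) (V - sL k n y ^ 2) (etaL ce n) y
      (H694.kN (LL k ce cl b n y V a) (UB q n y) ((1 + uB q n y V) / 2 - uB q n y V))
      p (H694.jN (mA q n y) (mB q n y)) (((n : ℝ) ^ (-(1 / 10) : ℝ)) ^ 2) (4 * tauB q n y) pR
      R3 ≤ eB q n y := by
  obtain ⟨f1, f2, f3, f4, f5, f6, f7, f8, f9, f10, f11, f12, f13, f14, f15, f16, f17, f18, f19,
    f20, f21⟩ := h.facts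
  obtain ⟨g1, g2, g3, g4, g5⟩ := h.small
  obtain ⟨k1, k2, k3, k4, k5, k6, k7, k8, k9, k10, k11, k12⟩ := h.bd
  obtain ⟨hAd, v1, v2⟩ := h.adm
  obtain ⟨s1, s2, s3⟩ := h.s_sq
  obtain ⟨t1, t2, t3, t4, t5⟩ := h.tau_mon
  have hn := h.n0
  have hy := h.y0
  have hV := h.V0
  have hb : 1 ≤ b := h.ex.b1'.le
  have hb0 : 0 < b := by linarith only [hb]
  have hA : 0 < A := by linarith only [h.ex.A1]
  have hU0 : 0 < UB q n y := by
    unfold UB
    positivity
  have hU1 : UB q n y ≤ 1 := by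
    unfold UB
    refine le_of_log (by positivity) (by positivity) ?_
    simp (disch := positivity) only [Real.log_mul, Real.log_rpow, Real.log_one]
    linarith only [f1, f2, f11, f12, f13, f19]
  have hcE : 0 < cE b := H694.CE_pos hb
  obtain ⟨N, hN⟩ : ∃ N, N = (n : ℝ) ^ (-(1 / 10) : ℝ) := ⟨_, rfl⟩
  have hN0 : 0 < N := by
    rw [hN]
    positivity
  have hN4 : (n : ℝ) ^ (-(2 / 5) : ℝ) = N ^ 4 := by
    rw [hN, ← Real.rpow_natCast, ← Real.rpow_mul hn.le]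
    congr 1
    norm_num
  have hN1 : N ≤ 1 := by
    rw [hN]
    refine le_of_log (by positivity) (by positivity) ?_
    simp (disch := positivity) only [Real.log_rpow, Real.log_one]
    linarith only [f1, f11, f12, f13]
  rw [hN4] at g1 g2 g3 g4 hp hpR
  rw [← hN] at g5 ⊢
  have key := e1n_le (b := b) (C := 30 * b ^ 3) (U := UB q n y) (hh := 1 / √(mA q n y : ℝ))
    (g := lamL cl ce n y / (sL k n y ^ 2 * n)) (v := V - sL k n y ^ 2) (η := etaL ce n) (x := y)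
    (k := H694.kN (LL k ce cl b n y V a) (UB q n y) ((1 + uB q n y V) / 2 - uB q n y V))
    (p := p) (j := H694.jN (mA q n y) (mB q n y)) (T := 4 * tauB q n y) (pR := pR) (R3 := R3)
    hb hU0 hU1 hN0 hN1 (by positivity) g1 (by positivity) g3
    (by linarith only [v2, k2]) k4.le g5 (by linarith only [k1]) (Real.sqrt_nonneg _) g4
    hp (Real.sqrt_nonneg _) g2 rfl hpR
  refine key.trans ?_
  -- the four monomials
  have hy7 : Real.log (y ^ (7 / 2 : ℝ)) = 7 / 2 * Real.log y := Real.log_rpow hy _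
  have hy70 : 0 < y ^ (7 / 2 : ℝ) := Real.rpow_pos_of_pos hy _
  have c12 := log_c 12 (by norm_num)
  have c8 := log_c 8 (by norm_num)
  have c4 := log_c 4 (by norm_num)
  have hcl : Real.log (cE b) ≤ q / 1000 * Real.log n := hK.trans f10
  have r1 : N ≤ eB q n y / 8 := by
    rw [hN]
    unfold eB
    refine le_of_log (by positivity) (by positivity) ?_
    simp (disch := positivity) only [Real.log_div, Real.log_mul, Real.log_rpow]
    linarith only [f1, f2, f11, f12, f13, f18, f19, c8]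
  have r2 : cE b * (12 * N) ≤ eB q n y / 8 := by
    rw [hN]
    unfold eB
    refine le_of_log (by positivity) (by positivity) ?_
    simp (disch := positivity) only [Real.log_div, Real.log_mul, Real.log_rpow]
    linarith only [f1, f2, f11, f12, f13, f18, f19, c8, c12, hcl]
  have r3 : cE b * (y * (4 * tauB q n y * UB q n y ^ 2)) ≤ eB q n y / 8 := by
    unfold eB tauB UB
    have c16 : 0 ≤ Real.log 16 := Real.log_nonneg (by norm_num)
    refine le_of_log (by positivity) (by positivity) ?_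
    simp (disch := positivity) only [Real.log_div, Real.log_mul, Real.log_rpow, Real.log_pow]
    push_cast
    linarith only [f1, f2, f11, f12, f13, f18, f19, c8, c4, c16, hcl]
  have r4 : cE b * (y * (V * UB q n y)) ≤ eB q n y / 8 := by
    unfold eB UB
    refine le_of_log (by positivity) (by positivity) ?_
    simp (disch := positivity) only [Real.log_div, Real.log_mul, Real.log_rpow]
    linarith only [f1, f2, f11, f12, f13, f18, f19, f21, c8, hcl]
  have r5 : cE b * (y * V ^ 2) ≤ eB q n y / 8 := by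
    unfold eB
    refine le_of_log (by positivity) (by positivity) ?_
    simp (disch := positivity) only [Real.log_div, Real.log_mul, Real.log_rpow, Real.log_pow]
    push_cast
    linarith only [f1, f2, f11, f12, f13, f18, f19, f21, c8, hcl]
  have r6 : R3 ≤ eB q n y / 8 := by
    refine hR.trans ?_
    unfold eB
    refine le_of_log (by positivity) (by positivity) ?_
    simp (disch := positivity) only [Real.log_div, Real.log_mul, Real.log_rpow]
    linarith only [f1, f2, c8]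
  have r7 : y * (4 * tauB q n y * UB q n y ^ 2 + (V - sL k n y ^ 2) * UB q n y +
      (V - sL k n y ^ 2) ^ 2) ≤
      y * (4 * tauB q n y * UB q n y ^ 2) + y * (V * UB q n y) + y * V ^ 2 := by
    have h1 : 0 ≤ V - sL k n y ^ 2 := by linarith only [v1, hV]
    have h2 : (V - sL k n y ^ 2) * UB q n y ≤ V * UB q n y :=
      mul_le_mul_of_nonneg_right v2 hU0.le
    have h3 : (V - sL k n y ^ 2) ^ 2 ≤ V ^ 2 := pow_le_pow_left₀ h1 v2 2
    have h4 := mul_le_mul_of_nonneg_left (add_le_add h2 h3) hy.le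
    linarith only [h4]
  have r8 := mul_le_mul_of_nonneg_left r7 hcE.le
  have e0 : H694.CE b (30 * b ^ 3) = cE b := rfl
  rw [e0]
  have he0 : 0 < eB q n y := by
    unfold eB
    positivity
  linarith only [r1, r2, r3, r4, r5, r6, r8, he0]

end

/-! ### the error of the third order term -/

/-- the error of the third order term at the relative error `√U` -/
lemma r3n_le {b T U h g k j k4 η x v p pR pC : ℝ} (hU0 : 0 < U) (hU1 : U ≤ 1)
    (hT : T ≤ √U) (hh0 : 0 ≤ h) (hh : h ≤ U ^ 2) (hg0 : 0 ≤ g) (hg : g ≤ U ^ 2) (hk0 : 0 ≤ k)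
    (hk : k ≤ U ^ 2) (hj0 : 0 ≤ j) (hj : j ≤ U ^ 2) (hk40 : 0 ≤ k4) (hk4 : k4 ≤ U ^ 4)
    (hη0 : 0 ≤ η) (hη : η ≤ U ^ 2) (hx0 : 0 ≤ x) (hx : x ≤ U) (hv0 : 0 ≤ v) (hv : v ≤ U ^ 2)
    (hp0 : 0 ≤ p) (hp : p ≤ U ^ 2) (hpR0 : 0 ≤ pR) (hpR : pR ≤ U ^ 5) (hpC0 : 0 ≤ pC)
    (hpC : pC ≤ U ^ 5) :
    C3Amp.R3n b T (√U) U h g k j k4 η x v p pR pC ≤ C3Amp.KR b * (19 * (U ^ 3 * √U)) := by
  have hr0 : 0 < √U := Real.sqrt_pos.2 hU0
  have hr2 : √U ^ 2 = U := Real.sq_sqrt hU0.le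
  have hKR : 0 ≤ C3Amp.KR b := by
    unfold C3Amp.KR
    positivity
  have hU3 : 0 < U ^ 3 := by positivity
  have hU4 : 0 < U ^ 4 := by positivity
  have u54 : U ^ 5 ≤ U ^ 4 := pow_le_pow_of_le_one hU0.le hU1 (by norm_num)
  have u53 : U ^ 5 ≤ U ^ 3 := pow_le_pow_of_le_one hU0.le hU1 (by norm_num)
  have u64 : U ^ 6 ≤ U ^ 4 := pow_le_pow_of_le_one hU0.le hU1 (by norm_num)
  have u104 : U ^ 10 ≤ U ^ 4 := pow_le_pow_of_le_one hU0.le hU1 (by norm_num)
  have a1 : k ^ 2 ≤ U ^ 4 := by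
    calc k ^ 2 ≤ (U ^ 2) ^ 2 := pow_le_pow_left₀ hk0 hk 2
      _ = U ^ 4 := by ring
  have a2 : η ^ 4 * U ^ 2 ≤ U ^ 4 := by
    calc η ^ 4 * U ^ 2 ≤ (U ^ 2) ^ 4 * U ^ 2 := by gcongr
      _ = U ^ 10 := by ring
      _ ≤ _ := u104
  have a3 : U ^ 2 * j ^ 2 ≤ U ^ 4 := by
    calc U ^ 2 * j ^ 2 ≤ U ^ 2 * (U ^ 2) ^ 2 := by gcongr
      _ = U ^ 6 := by ring
      _ ≤ _ := u64
  have a4 : v ^ 2 ≤ U ^ 4 := by
    calc v ^ 2 ≤ (U ^ 2) ^ 2 := pow_le_pow_left₀ hv0 hv 2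
      _ = U ^ 4 := by ring
  have hW : C3Amp.Wn U k j η v pR pC ≤ 6 * U ^ 4 := by
    unfold C3Amp.Wn
    linarith
  have hW0 : 0 ≤ C3Amp.Wn U k j η v pR pC := by
    unfold C3Amp.Wn
    positivity
  have hV : C3Amp.Vn U k4 pR pC ≤ 4 * U ^ 4 := by
    unfold C3Amp.Vn
    linarith
  have hV0 : 0 ≤ C3Amp.Vn U k4 pR pC := by
    unfold C3Amp.Vn
    positivity
  have b1 : √(C3Amp.Wn U k j η v pR pC * C3Amp.Vn U k4 pR pC) ≤ 5 * U ^ 4 := by
    rw [Real.sqrt_le_left (by positivity)]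
    calc C3Amp.Wn U k j η v pR pC * C3Amp.Vn U k4 pR pC ≤ 6 * U ^ 4 * (4 * U ^ 4) := by gcongr
      _ ≤ (5 * U ^ 4) ^ 2 := by nlinarith [sq_nonneg (U ^ 4)]
  have b2 : (pR + pC) / U ≤ 2 * U ^ 4 := by
    rw [div_le_iff₀ hU0]
    calc pR + pC ≤ U ^ 5 + U ^ 5 := add_le_add hpR hpC
      _ = _ := by ring
  have b3 : U * (h + g) ^ 2 ≤ 4 * U ^ 4 := by
    calc U * (h + g) ^ 2 ≤ U * (U ^ 2 + U ^ 2) ^ 2 := by gcongr
      _ = 4 * U ^ 5 := by ring
      _ ≤ _ := by linarith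
  have b4 : p ^ 2 ≤ U ^ 4 := by
    calc p ^ 2 ≤ (U ^ 2) ^ 2 := pow_le_pow_left₀ hp0 hp 2
      _ = U ^ 4 := by ring
  have b5 : v * η ^ 2 ≤ U ^ 4 := by
    calc v * η ^ 2 ≤ U ^ 2 * (U ^ 2) ^ 2 := by gcongr
      _ = U ^ 6 := by ring
      _ ≤ _ := u64
  have b6 : x ^ 2 * U ^ 2 ≤ U ^ 4 := by
    calc x ^ 2 * U ^ 2 ≤ U ^ 2 * U ^ 2 := by gcongr
      _ = U ^ 4 := by ring
  have c1 : (T + √U) * (U ^ 3 + pR) ≤ 4 * (U ^ 3 * √U) := by
    calc (T + √U) * (U ^ 3 + pR) ≤ (√U + √U) * (U ^ 3 + U ^ 3) := by gcongr; linarith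
      _ = _ := by ring
  have c2 : 1 / √U * (√(C3Amp.Wn U k j η v pR pC * C3Amp.Vn U k4 pR pC) + U ^ 4 +
      (pR + pC) / U + U * (h + g) ^ 2 + p ^ 2 + v * η ^ 2 + x ^ 2 * U ^ 2) ≤
      15 * (U ^ 3 * √U) := by
    calc 1 / √U * (√(C3Amp.Wn U k j η v pR pC * C3Amp.Vn U k4 pR pC) + U ^ 4 +
      (pR + pC) / U + U * (h + g) ^ 2 + p ^ 2 + v * η ^ 2 + x ^ 2 * U ^ 2)
        ≤ 1 / √U * (15 * U ^ 4) := mul_le_mul_of_nonneg_left (by linarith) (by positivity)
      _ = 15 * (U ^ 3 * √U) := by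
          rw [div_mul_eq_mul_div, div_eq_iff hr0.ne']
          calc 1 * (15 * U ^ 4) = 15 * (U ^ 3 * U) := by ring
            _ = 15 * (U ^ 3 * √U ^ 2) := by rw [hr2]
            _ = _ := by ring
  unfold C3Amp.R3n
  exact mul_le_mul_of_nonneg_left (by linarith) hKR

section

variable {b₁ b₀ q k ce cl A κ0 b K : ℝ} {n : ℕ} {y V a : ℝ}

lemma BW.r3n (h : BW b₁ b₀ q k ce cl A κ0 b K n y V a) (hK : Real.log (C3Amp.KR b) ≤ K) :
    C3Amp.R3n b (4 * tauB q n y) (√(UB q n y)) (UB q n y) (1 / √(mA q n y : ℝ))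
      (lamL cl ce n y / (sL k n y ^ 2 * n))
      (H694.kN (LL k ce cl b n y V a) (UB q n y) ((1 + uB q n y V) / 2 - uB q n y V))
      (H694.jN (mA q n y) (mB q n y)) (C3Amp.k4N (LL k ce cl b n y V a) (UB q n y) (tauB q n y))
      (etaL ce n) y (V - sL k n y ^ 2) ((n : ℝ) ^ (-(1 : ℝ))) ((n : ℝ) ^ (-(1 : ℝ)))
      ((n : ℝ) ^ (-(1 : ℝ))) ≤ (n : ℝ) ^ (12 * q) * y ^ (7 / 2 : ℝ) := by
  obtain ⟨f1, f2, f3, f4, f5, f6, f7, f8, f9, f10, f11, f12, f13, f14, f15, f16, f17, f18, f19,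
    f20, f21⟩ := h.facts
  obtain ⟨g1, g2, g3, g4, g5⟩ := h.small
  obtain ⟨k1, k2, k3, k4, k5, k6, k7, k8, k9, k10, k11, k12⟩ := h.bd
  obtain ⟨hAd, v1, v2⟩ := h.adm
  obtain ⟨s1, s2, s3⟩ := h.s_sq
  obtain ⟨t1, t2, t3, t4, t5⟩ := h.tau_mon
  have hn := h.n0
  have hy := h.y0
  have hV := h.V0
  have hb : 1 ≤ b := h.ex.b1'.le
  have hb0 : 0 < b := by linarith only [hb]
  have hU0 : 0 < UB q n y := by
    unfold UB
    positivity
  have hU1 : UB q n y ≤ 1 := by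
    unfold UB
    refine le_of_log (by positivity) (by positivity) ?_
    simp (disch := positivity) only [Real.log_mul, Real.log_rpow, Real.log_one]
    linarith only [f1, f2, f11, f12, f13, f19]
  have w1 : (n : ℝ) ^ (-(2 / 5) : ℝ) ≤ UB q n y ^ 2 := by
    unfold UB
    refine le_of_log (by positivity) (by positivity) ?_
    simp (disch := positivity) only [Real.log_mul, Real.log_rpow, Real.log_pow]
    push_cast
    linarith only [f1, f2, f11, f12, f13, f18, f19]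
  have w2 : (n : ℝ) ^ (-(1 / 10) : ℝ) ≤ UB q n y ^ 2 := by
    unfold UB
    refine le_of_log (by positivity) (by positivity) ?_
    simp (disch := positivity) only [Real.log_mul, Real.log_rpow, Real.log_pow]
    push_cast
    linarith only [f1, f2, f11, f12, f13, f18, f19]
  have w3 : (n : ℝ) ^ (-(1 : ℝ)) ≤ UB q n y ^ 5 := by
    unfold UB
    refine le_of_log (by positivity) (by positivity) ?_
    simp (disch := positivity) only [Real.log_mul, Real.log_rpow, Real.log_pow]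
    push_cast
    linarith only [f1, f2, f11, f12, f13, f18, f19]
  have w3' : UB q n y ^ 5 ≤ UB q n y ^ 2 := pow_le_pow_of_le_one hU0.le hU1 (by norm_num)
  have w4 : V ≤ UB q n y ^ 2 := by
    unfold UB
    refine le_of_log (by positivity) (by positivity) ?_
    simp (disch := positivity) only [Real.log_mul, Real.log_rpow, Real.log_pow]
    push_cast
    linarith only [f1, f2, f11, f12, f13, f18, f19, f21]
  have w5 : 4 * tauB q n y ≤ √(UB q n y) := by
    unfold UB tauB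
    have c4 := log_c 4 (by norm_num)
    have c16 : 0 ≤ Real.log 16 := Real.log_nonneg (by norm_num)
    refine le_of_log (by positivity) (by positivity) ?_
    simp (disch := positivity) only [Real.log_mul, Real.log_rpow, Real.log_pow, Real.log_sqrt,
      Real.log_div]
    push_cast
    linarith only [f1, f2, f11, f12, f13, f18, f19, f21, c4, c16]
  have w6 : y ≤ UB q n y := by
    unfold UB
    refine le_of_log (by positivity) (by positivity) ?_
    simp (disch := positivity) only [Real.log_mul, Real.log_rpow]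
    linarith only [f1]
  have e4 : C3Amp.k4N (LL k ce cl b n y V a) (UB q n y) (tauB q n y) =
      14 * UB q n y ^ 2 / (n * y ^ 2 * b ^ 2 * tauB q n y) := rfl
  have w7 : C3Amp.k4N (LL k ce cl b n y V a) (UB q n y) (tauB q n y) ≤ UB q n y ^ 4 := by
    rw [e4]
    unfold UB tauB
    have c14 := log_c 14 (by norm_num)
    have c16 := log_c 16 (by norm_num)
    refine le_of_log (by positivity) (by positivity) ?_
    simp (disch := positivity) only [Real.log_mul, Real.log_rpow, Real.log_pow, Real.log_div]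
    push_cast
    linarith only [f1, f2, f3, f11, f12, f13, f18, f19, c14, c16]
  have w8 : 0 ≤ C3Amp.k4N (LL k ce cl b n y V a) (UB q n y) (tauB q n y) := by
    rw [e4]
    positivity
  have key := r3n_le (b := b) (T := 4 * tauB q n y) (U := UB q n y) (h := 1 / √(mA q n y : ℝ))
    (g := lamL cl ce n y / (sL k n y ^ 2 * n))
    (k := H694.kN (LL k ce cl b n y V a) (UB q n y) ((1 + uB q n y V) / 2 - uB q n y V))
    (j := H694.jN (mA q n y) (mB q n y))
    (k4 := C3Amp.k4N (LL k ce cl b n y V a) (UB q n y) (tauB q n y)) (η := etaL ce n) (x := y)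
    (v := V - sL k n y ^ 2) (p := (n : ℝ) ^ (-(1 : ℝ))) (pR := (n : ℝ) ^ (-(1 : ℝ)))
    (pC := (n : ℝ) ^ (-(1 : ℝ))) hU0 hU1 w5 (by positivity) (g1.trans w1)
    (div_nonneg (by linarith only [k7]) (by positivity)) (g3.trans w1)
    (Real.sqrt_nonneg _) (g4.trans w1) (Real.sqrt_nonneg _) (g2.trans w1) w8 w7 k4.le
    (g5.trans w2) hy.le w6 (by linarith only [v1, hV]) (v2.trans w4) (by positivity)
    (w3.trans w3') (by positivity) w3 (by positivity) w3
  refine key.trans ?_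
  have hKR : 0 < C3Amp.KR b := by
    unfold C3Amp.KR
    positivity
  have hcl : Real.log (C3Amp.KR b) ≤ q / 1000 * Real.log n := hK.trans f10
  have c19 := log_c 19 (by norm_num)
  unfold UB
  refine le_of_log (by positivity) (by positivity) ?_
  simp (disch := positivity) only [Real.log_mul, Real.log_rpow, Real.log_pow, Real.log_sqrt]
  push_cast
  linarith only [f1, f2, f11, f12, f13, f18, f19, c19, hcl]

end

/-! ### the region, the gap, the probability -/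

/-- the region, one `n` -/
lemma reg_core {τn ξ Lc kp vp x b a : ℝ} (p3 : kp * b = 1 + a) (ha : -(1 / 1000) ≤ a)
    (hb : 1 ≤ b) (hξ0 : 0 ≤ ξ) (hξ : ξ ≤ 1 / 2) (hL : 0 < Lc) (hkp0 : 0 ≤ kp) (hkp1 : kp ≤ 1)
    (hvp : 0 ≤ vp) (hx : 0 ≤ x) (hτ : 0 ≤ τn) (h1 : 64 * (τn * Lc) ≤ x * Lc ^ 2)
    (h2 : 96 * vp ≤ x * Lc ^ 2) :
    2 * τn * ((1 - ξ) * Lc) + 3 * (kp ^ 2 * vp) ≤
      x * kp ^ 3 * b ^ 4 * ((1 - ξ) * Lc) ^ 2 := by
  have e1 : x * kp ^ 3 * b ^ 4 * ((1 - ξ) * Lc) ^ 2 =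
      (1 + a) ^ 3 * b * (1 - ξ) ^ 2 * (x * Lc ^ 2) := by
    rw [← p3]
    ring
  have hxL : 0 ≤ x * Lc ^ 2 := by positivity
  have a1 : 9 / 10 ≤ (1 + a) ^ 3 := by
    calc (9 / 10 : ℝ) ≤ (999 / 1000 : ℝ) ^ 3 := by norm_num
      _ ≤ (1 + a) ^ 3 := pow_le_pow_left₀ (by norm_num) (by linarith) 3
  have a2 : 1 / 4 ≤ (1 - ξ) ^ 2 := by nlinarith
  have a3 : 1 / 16 * (x * Lc ^ 2) ≤ (1 + a) ^ 3 * b * (1 - ξ) ^ 2 * (x * Lc ^ 2) := by
    refine mul_le_mul_of_nonneg_right ?_ hxL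
    calc (1 / 16 : ℝ) ≤ 9 / 10 * 1 * (1 / 4) := by norm_num
      _ ≤ (1 + a) ^ 3 * b * (1 - ξ) ^ 2 := by gcongr
  rw [e1]
  refine le_trans ?_ a3
  have a4 : 2 * τn * ((1 - ξ) * Lc) ≤ 2 * (τn * Lc) := by
    have : (1 - ξ) * Lc ≤ Lc := mul_le_of_le_one_left hL.le (by linarith)
    nlinarith
  have a5 : kp ^ 2 * vp ≤ vp := mul_le_of_le_one_left hvp (pow_le_one₀ hkp0 hkp1)
  linarith

/-- the gap, one `n` -/
lemma gap_core {τ τm ξ ηt Lc kp x b a U γ : ℝ} (p3 : kp * b = 1 + a) (ha : -(1 / 1000) ≤ a)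
    (ha' : a ≤ 1 / 1000) (hb : 1 ≤ b) (hξ0 : 0 ≤ ξ) (hL : 0 < Lc) (hx : 0 ≤ x) (hU : 0 < U)
    (hτ : 0 ≤ τ) (hγ : 0 < γ) (hηt : ηt = γ * Lc / 12) (h1 : 8 * γ ≤ τ / U ^ 2)
    (h2 : 8 * (x * b * ξ) / Lc ≤ γ) (h3 : 8 * τm * ξ / Lc ^ 2 ≤ γ) :
    γ ≤ kp ^ 2 * b ^ 2 * τ / U ^ 2 - 4 * (x * kp ^ 3 * b ^ 4) * ξ / Lc -
      8 * τm * ξ / Lc ^ 2 - 3 * ηt / Lc := by
  have e1 : 3 * ηt / Lc = γ / 4 := by
    rw [hηt]
    field_simp
    norm_num
  have e2 : kp ^ 2 * b ^ 2 * τ / U ^ 2 = (1 + a) ^ 2 * (τ / U ^ 2) := by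
    rw [← p3]
    ring
  have e3 : 4 * (x * kp ^ 3 * b ^ 4) * ξ / Lc = (1 + a) ^ 3 * (4 * (x * b * ξ) / Lc) := by
    rw [← p3]
    ring
  rw [e1, e2, e3]
  have a1 : 9 / 10 ≤ (1 + a) ^ 2 := by
    calc (9 / 10 : ℝ) ≤ (999 / 1000 : ℝ) ^ 2 := by norm_num
      _ ≤ (1 + a) ^ 2 := pow_le_pow_left₀ (by norm_num) (by linarith) 2
  have a2 : (1 + a) ^ 3 ≤ 2 := by
    calc (1 + a) ^ 3 ≤ (1001 / 1000 : ℝ) ^ 3 := pow_le_pow_left₀ (by linarith) (by linarith) 3
      _ ≤ 2 := by norm_num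
  have b1 : 9 / 10 * (τ / U ^ 2) ≤ (1 + a) ^ 2 * (τ / U ^ 2) :=
    mul_le_mul_of_nonneg_right a1 (by positivity)
  have b2 : (1 + a) ^ 3 * (4 * (x * b * ξ) / Lc) ≤ 2 * (4 * (x * b * ξ) / Lc) := by
    have hb0 : 0 ≤ b := by linarith
    exact mul_le_mul_of_nonneg_right a2 (by positivity)
  have b3 : 2 * (4 * (x * b * ξ) / Lc) = 8 * (x * b * ξ) / Lc := by ring
  linarith

section

variable {b₁ b₀ q k ce cl A κ0 b K : ℝ} {n : ℕ} {y V a : ℝ}

lemma BW.region (h : BW b₁ b₀ q k ce cl A κ0 b K n y V a) {kp : ℝ} (hkp : kp = (1 + a) / b) :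
    2 * (3 * (A * ((n : ℝ) ^ (-(10 * q)) * y ^ 2))) *
        ((1 - (n : ℝ) ^ (-(20 * q))) * (κ0 * y / 2)) + 3 * (kp ^ 2 * (V - sL k n y ^ 2)) ≤
      y * kp ^ 3 * b ^ 4 * ((1 - (n : ℝ) ^ (-(20 * q))) * (κ0 * y / 2)) ^ 2 ∧
      (n : ℝ) ^ (-(20 * q)) ≤ 1 / 2 ∧ 16 * etaL ce n ≤ (n : ℝ) ^ (-(20 * q)) := by
  obtain ⟨f1, f2, f3, f4, f5, f6, f7, f8, f9, f10, f11, f12, f13, f14, f15, f16, f17, f18, f19,
    f20, f21⟩ := h.facts
  obtain ⟨-, -, -, -, -, -, -, -, -, k10, -, -⟩ := h.bd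
  obtain ⟨hAd, v1, v2⟩ := h.adm
  obtain ⟨p1, p2, p3, p4, p5⟩ := h.kp hkp
  obtain ⟨l1, l2⟩ := abs_le.1 k10
  have hn := h.n0
  have hy := h.y0
  have hV := h.V0
  have hκ := h.ex.κ0
  have hb : 1 ≤ b := h.ex.b1'.le
  have hA : 0 < A := by linarith only [h.ex.A1]
  have c64 := log_c 64 (by norm_num)
  have c96 := log_c 96 (by norm_num)
  have c3 := log_c 3 (by norm_num)
  have c2 := log_c 2 (by norm_num)
  have c16 := log_c 16 (by norm_num)
  have hξ : (n : ℝ) ^ (-(20 * q)) ≤ 1 / 2 := by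
    refine le_of_log (by positivity) (by positivity) ?_
    simp (disch := positivity) only [Real.log_rpow, Real.log_div, Real.log_one]
    linarith only [f1, f2, c2]
  refine ⟨reg_core p3 l1 hb (by positivity) hξ (by positivity) p1.le p2 (by linarith only [v1, hV])
    hy.le (by positivity) ?_ ?_, hξ, ?_⟩
  · refine le_of_log (by positivity) (by positivity) ?_
    simp (disch := positivity) only [Real.log_mul, Real.log_rpow, Real.log_pow, Real.log_div]
    push_cast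
    linarith only [f1, f2, f7, f8, c64, c3, c2]
  · refine (mul_le_mul_of_nonneg_left v2 (by norm_num)).trans ?_
    refine le_of_log (by positivity) (by positivity) ?_
    simp (disch := positivity) only [Real.log_mul, Real.log_pow, Real.log_div]
    push_cast
    linarith only [f1, f2, f7, f8, f21, c96, c2]
  · unfold etaL
    refine le_of_log (by positivity) (by positivity) ?_
    simp (disch := positivity) only [Real.log_mul, Real.log_rpow]
    linarith only [f1, f2, f11, f12, f13, f15, c16]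

lemma BW.gap (h : BW b₁ b₀ q k ce cl A κ0 b K n y V a) {kp : ℝ} (hkp : kp = (1 + a) / b) :
    (n : ℝ) ^ (-(8 * q)) ≤ kp ^ 2 * b ^ 2 * tauB q n y / UB q n y ^ 2 -
      4 * (y * kp ^ 3 * b ^ 4) * (n : ℝ) ^ (-(20 * q)) / (κ0 * y / 2) -
      8 * ((n : ℝ) ^ (5 * q) * y ^ 2) * (n : ℝ) ^ (-(20 * q)) / (κ0 * y / 2) ^ 2 -
      3 * ((n : ℝ) ^ (-(8 * q)) * (κ0 * y / 2) / 12) / (κ0 * y / 2) := by
  obtain ⟨f1, f2, f3, f4, f5, f6, f7, f8, f9, f10, f11, f12, f13, f14, f15, f16, f17, f18, f19,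
    f20, f21⟩ := h.facts
  obtain ⟨-, -, -, -, -, -, -, -, -, k10, -, -⟩ := h.bd
  obtain ⟨p1, p2, p3, p4, p5⟩ := h.kp hkp
  obtain ⟨l1, l2⟩ := abs_le.1 k10
  obtain ⟨t1, t2, t3, t4, t5⟩ := h.tau_mon
  have hn := h.n0
  have hy := h.y0
  have hκ := h.ex.κ0
  have hb : 1 ≤ b := h.ex.b1'.le
  have hb0 : 0 < b := by linarith only [hb]
  have c8 := log_c 8 (by norm_num)
  have c2 := log_c 2 (by norm_num)
  have c16 := log_c 16 (by norm_num)
  refine gap_core p3 l1 l2 hb (by positivity) (by positivity) hy.le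
    (by unfold UB; positivity) t5.le (by positivity) rfl ?_ ?_ ?_
  · unfold tauB UB
    refine le_of_log (by positivity) (by positivity) ?_
    simp (disch := positivity) only [Real.log_mul, Real.log_rpow, Real.log_pow, Real.log_div]
    push_cast
    linarith only [f1, f2, c8, c16]
  · refine le_of_log (by positivity) (by positivity) ?_
    simp (disch := positivity) only [Real.log_mul, Real.log_rpow, Real.log_div]
    linarith only [f1, f2, f4, f8, c8, c2]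
  · refine le_of_log (by positivity) (by positivity) ?_
    simp (disch := positivity) only [Real.log_mul, Real.log_rpow, Real.log_pow, Real.log_div]
    push_cast
    linarith only [f1, f2, f8, c8, c2]

lemma BW.pbn (h : BW b₁ b₀ q k ce cl A κ0 b K n y V a) {k' p2 e : ℝ}
    (hk : k' ≤ (n : ℝ) ^ (-(2 / 5) : ℝ)) (hp : p2 ≤ (n : ℝ) ^ (-(1 : ℝ)))
    (he : e ≤ eB q n y) :
    H694.PBn (30 * b ^ 3) ((n : ℝ) ^ (-(8 * q))) ((n : ℝ) ^ (-(20 * q)))
      ((n : ℝ) ^ (-(8 * q)) * (κ0 * y / 2) / 12) (κ0 * y / 2) k' p2 e ≤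
      (n : ℝ) ^ (31 * q) * y ^ (1 / 2 : ℝ) := by
  obtain ⟨f1, f2, f3, f4, f5, f6, f7, f8, f9, f10, f11, f12, f13, f14, f15, f16, f17, f18, f19,
    f20, f21⟩ := h.facts
  have hn := h.n0
  have hy := h.y0
  have hκ := h.ex.κ0
  have hb : 1 ≤ b := h.ex.b1'.le
  have hb0 : 0 < b := by linarith only [hb]
  have c34 := log_c 34 (by norm_num)
  have c2 := log_c 2 (by norm_num)
  have c12 := log_c 12 (by norm_num)
  have c5 := log_c 5 (by norm_num)
  have c6 := log_c 6 (by norm_num)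
  have c30 := log_c 30 (by norm_num)
  have c30' : 0 ≤ Real.log 30 := Real.log_nonneg (by norm_num)
  unfold H694.PBn
  obtain ⟨P, hP⟩ : ∃ P, P = (n : ℝ) ^ (22 * q) * y ^ (1 / 2 : ℝ) := ⟨_, rfl⟩
  have hP0 : 0 < P := by
    rw [hP]
    positivity
  have a1 : 34 * k' / (((n : ℝ) ^ (-(20 * q))) ^ 2 * (κ0 * y / 2)) ≤ P := by
    have h1 : 34 * k' / (((n : ℝ) ^ (-(20 * q))) ^ 2 * (κ0 * y / 2)) ≤
        34 * (n : ℝ) ^ (-(2 / 5) : ℝ) / (((n : ℝ) ^ (-(20 * q))) ^ 2 * (κ0 * y / 2)) := by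
      gcongr
    refine h1.trans ?_
    rw [hP]
    refine le_of_log (by positivity) (by positivity) ?_
    simp (disch := positivity) only [Real.log_mul, Real.log_rpow, Real.log_pow, Real.log_div]
    push_cast
    linarith only [f1, f2, f8, f11, f12, f13, f18, f19, c34, c2]
  have a2 : p2 ≤ P := by
    refine hp.trans ?_
    rw [hP]
    refine le_of_log (by positivity) (by positivity) ?_
    simp (disch := positivity) only [Real.log_mul, Real.log_rpow]
    linarith only [f1, f2, f11, f12, f13, f18, f19]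
  have a3 : 5 * e / ((n : ℝ) ^ (-(8 * q)) * (κ0 * y / 2) / 12 * (κ0 * y / 2) ^ 2) ≤ P := by
    have h1 : 5 * e / ((n : ℝ) ^ (-(8 * q)) * (κ0 * y / 2) / 12 * (κ0 * y / 2) ^ 2) ≤
        5 * eB q n y / ((n : ℝ) ^ (-(8 * q)) * (κ0 * y / 2) / 12 * (κ0 * y / 2) ^ 2) := by
      gcongr
    refine h1.trans ?_
    rw [hP]
    unfold eB
    refine le_of_log (by positivity) (by positivity) ?_
    simp (disch := positivity) only [Real.log_mul, Real.log_rpow, Real.log_pow, Real.log_div]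
    push_cast
    linarith only [f1, f2, f8, f11, f12, f13, f18, f19, c5, c2, c12]
  have a4 : 1 ≤ (30 * b ^ 3) ^ 2 / (n : ℝ) ^ (-(8 * q)) := by
    refine le_of_log (by positivity) (by positivity) ?_
    simp (disch := positivity) only [Real.log_mul, Real.log_rpow, Real.log_pow, Real.log_div,
      Real.log_one]
    push_cast
    linarith only [f1, f2, f3, c30']
  calc (1 + (30 * b ^ 3) ^ 2 / (n : ℝ) ^ (-(8 * q))) *
        (34 * k' / (((n : ℝ) ^ (-(20 * q))) ^ 2 * (κ0 * y / 2)) + p2 +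
          5 * e / ((n : ℝ) ^ (-(8 * q)) * (κ0 * y / 2) / 12 * (κ0 * y / 2) ^ 2))
      ≤ (1 + (30 * b ^ 3) ^ 2 / (n : ℝ) ^ (-(8 * q))) * (P + P + P) :=
        mul_le_mul_of_nonneg_left (by linarith only [a1, a2, a3]) (by positivity)
    _ ≤ ((30 * b ^ 3) ^ 2 / (n : ℝ) ^ (-(8 * q)) + (30 * b ^ 3) ^ 2 / (n : ℝ) ^ (-(8 * q))) *
        (P + P + P) := by gcongr
    _ = 6 * ((30 * b ^ 3) ^ 2 / (n : ℝ) ^ (-(8 * q)) * P) := by ring
    _ ≤ _ := by
        rw [hP]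
        refine le_of_log (by positivity) (by positivity) ?_
        simp (disch := positivity) only [Real.log_mul, Real.log_rpow, Real.log_pow,
          Real.log_div]
        push_cast
        linarith only [f1, f2, f4, c6, c30]

/-- the coarse step -/
lemma BW.coarse (h : BW b₁ b₀ q k ce cl A κ0 b K n y V a) :
    √(UB q n y ^ 2 * ((n : ℝ) ^ (31 * q) * y ^ (1 / 2 : ℝ))) / (κ0 * y / 2) ≤
      (n : ℝ) ^ (-(b₀ / 8)) := by
  obtain ⟨f1, f2, f3, f4, f5, f6, f7, f8, f9, f10, f11, f12, f13, f14, f15, f16, f17, f18, f19,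
    f20, f21⟩ := h.facts
  have hn := h.n0
  have hy := h.y0
  have hκ := h.ex.κ0
  have c2 := log_c 2 (by norm_num)
  unfold UB
  refine le_of_log (by positivity) (by positivity) ?_
  simp (disch := positivity) only [Real.log_mul, Real.log_rpow, Real.log_pow, Real.log_div,
    Real.log_sqrt]
  push_cast
  linarith only [f1, f2, f8, f11, f19, c2]

end

section fin

variable {b₁ b₀ q k ce cl A κ0 b K : ℝ} {n : ℕ} {y V a : ℝ}

/-- the second moment of the overlap from the fourth -/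
lemma qq_nums {L : Law} (hA : H320.Adm L) {tm U p pR : ℝ}
    (hN : H694.Nums L tm U p pR) (S : Finset (Fin L.n)) {t u : ℝ} (ht0 : 0 ≤ t) (ht : t ≤ tm)
    (hu0 : 0 ≤ u) (hu : u ≤ 1) : L.qq S t u ≤ U ^ 2 := by
  have hw := H412.wtL (L := L) hA.lam0 hA.η0 t u
  have bQ := H412.bm_Q hA.lam0 hA.η0 S t u
  have h1 := H615.ex_le_sqrt hw (H615.bsq bQ)
  have h2 := hN.m4 S t u ht0 ht hu0 hu
  have e1 : (fun z => (L.Q S t u z ^ 2) ^ 2) = fun z => L.Q S t u z ^ 4 := by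
    funext z
    ring
  rw [e1] at h1
  refine (show L.qq S t u ≤ _ from h1).trans ?_
  have h3 := Real.sqrt_le_sqrt h2
  refine h3.trans (le_of_eq ?_)
  rw [show U ^ 4 = (U ^ 2) ^ 2 by ring, Real.sqrt_sq (by positivity)]

/-- **One `n`: the exclusion of the big root at all the points of the window.** -/
theorem br_pt (h : BW b₁ b₀ q k ce cl A κ0 b K n y V a) (hK1 : Real.log (cE b) ≤ K)
    (hK2 : Real.log (C3Amp.KR b) ≤ K)
    (hN : H694.Nums (LL k ce cl b n y V a) (1 - tauB q n y) (UB q n y) ((n : ℝ) ^ (-(1 : ℝ)))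
      ((n : ℝ) ^ (-(1 : ℝ))))
    (hC : C3Amp.TailC (LL k ce cl b n y V a) (1 - tauB q n y) (UB q n y)
      ((n : ℝ) ^ (-(1 : ℝ))))
    {T u : ℝ} (hT : 4 * tauB q n y ≤ T) (hT1 : T ≤ 1) (hu0 : 0 ≤ u) (hu : u ≤ uB q n y V)
    {m : ℕ} (hm : mB q n y ≤ m) :
    (LL k ce cl b n y V a).ex' (1 - T) u
      (H317.ind (κ0 * y) ((LL k ce cl b n y V a).Q (Sn n m) (1 - T) u)) ≤
      (n : ℝ) ^ (-(b₀ / 8)) := by
  obtain ⟨p1, p2, p3, p4, p5⟩ := h.kp (kp := (1 + a) / b) rfl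
  obtain ⟨r1, r2, r3⟩ := h.region (kp := (1 + a) / b) rfl
  have hgap := h.gap (kp := (1 + a) / b) rfl
  obtain ⟨g1, g2, g3, g4, g5⟩ := h.small
  obtain ⟨k1, k2, k3, k4, k5, k6, k7, k8, k9, k10, k11, k12⟩ := h.bd
  obtain ⟨hAd, v1, v2⟩ := h.adm
  obtain ⟨s1, s2, s3⟩ := h.s_sq
  obtain ⟨t1, t2, t3, t4, t5⟩ := h.tau_mon
  obtain ⟨m1, m2, m3, m4, m5, m6, m7, m8⟩ := h.mm
  obtain ⟨u1, u2, u3⟩ := h.uB_mem
  have hn := h.n0
  have hy := h.y0
  have hV := h.V0
  have hκ := h.ex.κ0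
  have hb : 1 ≤ b := h.ex.b1'.le
  have hb0 : 0 < b := by linarith only [hb]
  have hA : 0 < A := by linarith only [h.ex.A1]
  have hnn : 0 < n := by exact_mod_cast hn
  obtain ⟨f1, f2, f3, f4, f5, f6, f7, f8, f9, f10, f11, f12, f13, f14, f15, f16, f17, f18, f19,
    f20, f21⟩ := h.facts
  have hU0 : 0 < UB q n y := by
    unfold UB
    positivity
  have hU1 : UB q n y ≤ 1 := by
    unfold UB
    refine le_of_log (by positivity) (by positivity) ?_
    simp (disch := positivity) only [Real.log_mul, Real.log_rpow, Real.log_one]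
    linarith only [f1, f2, f11, f12, f13, f19]
  have w6 : y ≤ UB q n y := by
    unfold UB
    refine le_of_log (by positivity) (by positivity) ?_
    simp (disch := positivity) only [Real.log_mul, Real.log_rpow]
    linarith only [f1]
  have w7 : V ≤ UB q n y := by
    unfold UB
    refine le_of_log (by positivity) (by positivity) ?_
    simp (disch := positivity) only [Real.log_mul, Real.log_rpow]
    linarith only [f1, f2, f11, f12, f13, f18, f19, f21]
  have w8 : 4 * (y * b ^ 2) ≤ 1 := by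
    have c4 := log_c 4 (by norm_num)
    refine le_of_log (by positivity) (by positivity) ?_
    simp (disch := positivity) only [Real.log_mul, Real.log_pow, Real.log_one]
    push_cast
    linarith only [f1, f2, f4, f11, f12, f13, f19, c4]
  have w9 : (n : ℝ) ^ (5 * q) * y ^ 2 ≤ UB q n y ^ 2 := by
    unfold UB
    refine le_of_log (by positivity) (by positivity) ?_
    simp (disch := positivity) only [Real.log_mul, Real.log_rpow, Real.log_pow]
    push_cast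
    linarith only [f1]
  have hb2 : 1 ≤ b ^ 2 := one_le_pow₀ hb
  have hvU : V - sL k n y ^ 2 ≤ b ^ 2 * UB q n y :=
    calc V - sL k n y ^ 2 ≤ 1 * UB q n y := by linarith only [v2, w7]
      _ ≤ b ^ 2 * UB q n y := mul_le_mul_of_nonneg_right hb2 hU0.le
  have hx2 : y ^ 2 * (b ^ 2 + (V - sL k n y ^ 2)) ≤ 1 / 4 := by
    have h1 : y ^ 2 * (V - sL k n y ^ 2) ≤ 1 * (1 / 1000) :=
      mul_le_mul (pow_le_one₀ hy.le (by linarith only [k1])) (by linarith only [v2, k2])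
        (by linarith only [v1, hV]) zero_le_one
    have e : y ^ 2 * (b ^ 2 + (V - sL k n y ^ 2)) =
      y ^ 2 * b ^ 2 + y ^ 2 * (V - sL k n y ^ 2) := by ring
    linarith only [h1, e, k8]
  have he1n := h.e1n hK1 (h.r3n hK2) (p := (n : ℝ) ^ (-(1 : ℝ))) (pR := (n : ℝ) ^ (-(1 : ℝ)))
    (by
      refine le_of_log (by positivity) (by positivity) ?_
      simp (disch := positivity) only [Real.log_rpow]
      linarith only [f1, f11, f12, f13])
    (by
      refine le_of_log (by positivity) (by positivity) ?_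
      simp (disch := positivity) only [Real.log_rpow]
      linarith only [f1, f11, f12, f13])
  have heB : 0 < eB q n y := by
    unfold eB
    positivity
  obtain ⟨t', ht', u', hu', m', hm', key⟩ := C3Amp.br_n3 (L := LL k ce cl b n y V a) hAd k4
    (by show etaL ce n ≤ 1 / 2; linarith only [k3]) s1.ne' hy
    (by show y < 1; linarith only [k1]) (r0 := H615.rq b y a) (kp := (1 + a) / b) p4
    (cc_LL rfl) p1.le p2 p5 hb hx2 w8 (m1 := mA q n y) (m2 := mB q n y) m6 m3 m7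
    (q0 := 1 - 4 * tauB q n y) (q1 := 1 - 3 * tauB q n y) (p0 := 1 - 2 * tauB q n y)
    (p1 := 1 - tauB q n y) (u0 := uB q n y V) (u1 := (1 + uB q n y V) / 2)
    (by linarith only [t1]) (by linarith only [t5]) (by linarith only [t5])
    (by linarith only [u1]) (by linarith only [u2]) (by linarith only [u2])
    (dt := tauB q n y) t5 (by linarith only) (by linarith only)
    (U := UB q n y) (g := lamL cl ce n y / (sL k n y ^ 2 * n)) (p := (n : ℝ) ^ (-(1 : ℝ)))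
    (δ := ((n : ℝ) ^ (-(1 / 10) : ℝ)) ^ 2) (T := 4 * tauB q n y) (ee := √(UB q n y))
    (pR := (n : ℝ) ^ (-(1 : ℝ))) (pC := (n : ℝ) ^ (-(1 : ℝ))) (ξ := (n : ℝ) ^ (-(20 * q)))
    (ηt := (n : ℝ) ^ (-(8 * q)) * (κ0 * y / 2) / 12) (Lc := κ0 * y / 2)
    (γ := (n : ℝ) ^ (-(8 * q))) (τm := (n : ℝ) ^ (5 * q) * y ^ 2)
    (τn := 3 * (A * ((n : ℝ) ^ (-(10 * q)) * y ^ 2))) (e := eB q n y) hU0 hU1 w6
    (by linarith only) hvU
    (fun m hm t ht => (h.tau rfl (Finset.mem_Icc.1 hm).2 ht.1 (by linarith only [ht.2, t5])).1)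
    w9
    (fun m hm t ht => (h.tau rfl (Finset.mem_Icc.1 hm).2 ht.1 (by linarith only [ht.2, t5])).2)
    (by positivity) le_rfl (by positivity) (by positivity) hN hC (Real.sqrt_pos.2 hU0)
    (Real.sqrt_le_one.2 hU1) (by positivity) r3 r2 (by positivity) r1 (by positivity)
    (by
      have e1 : (1 - 2 * tauB q n y) - (1 - 3 * tauB q n y) = tauB q n y := by ring
      rw [e1]
      exact hgap) heB.le he1n
  obtain ⟨hm1, hm2⟩ := Finset.mem_Icc.1 hm'
  have hpb := key.trans (h.pbn g4 le_rfl le_rfl)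
  have hu'1 : u' ≤ 1 := by linarith only [hu'.2, u2]
  have hu'0 : 0 ≤ u' := by linarith only [hu'.1, u1]
  have ht'1 : t' ≤ 1 - tauB q n y := by linarith only [ht'.2, t5]
  have ht'0 : 0 ≤ t' := by linarith only [ht'.1, t1]
  have hqq := qq_nums hAd hN (Sn n m') ht'0 ht'1 hu'0 hu'1
  have hco := H762.coarse_ind (L := LL k ce cl b n y V a) (S := Sn n m) (S' := Sn n m')
    (t := 1 - T) (t' := t') (u := u) (u' := u') hAd.lam0 hAd.η0 hAd.vp0 hnn
    (H643.Sn_anti (hm2.trans hm)) (by linarith only [hT1]) (by linarith only [ht'.1, hT])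
    (by linarith only [ht'1, t5]) hu0 (hu.trans hu'.1) hu'1
    (ℓ := κ0 * y / 2) (q := UB q n y ^ 2) (p := (n : ℝ) ^ (31 * q) * y ^ (1 / 2 : ℝ))
    (by positivity) hqq (by rw [H762.big_eq]; exact hpb)
  rw [show 2 * (κ0 * y / 2) = κ0 * y by ring] at hco
  exact hco.trans h.coarse

/-- **The exclusion of the big root on the zone `Z2` of LC.** -/
theorem br_lc (hx : BX b₁ b₀ q k ce cl A κ0 b) :
    ∀ᶠ n : ℕ in atTop, ∀ y : ℝ, (n : ℝ) ^ (-b₁) ≤ y → y ≤ 2 * (n : ℝ) ^ (-b₀) →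
      ∀ V : ℝ, y ^ 5 ≤ A * V → V ≤ A * ((n : ℝ) ^ (-(23 * q)) * y ^ 3) →
      H178.AP b q n y (2 * V) → ∀ a : ℝ, SG n b y V a → -((n : ℝ) ^ (4 * q) * y ^ 2) ≤ a →
      a ≤ A * ((n : ℝ) ^ (-(10 * q)) * y ^ 2) →
      ∀ T : ℝ, (n : ℝ) ^ (-q) * y ^ 2 / 4 ≤ T → T ≤ 1 → ∀ u : ℝ, 0 ≤ u →
      u ≤ max (1 / 2) (1 - (n : ℝ) ^ (-q) * y ^ 4 / V) →
      ∀ m : ℕ, ⌈(n : ℝ) ^ (1 - q - 40 * q) * y ^ 2⌉₊ ≤ m →
      (lawOf n b y V a (sL k n y) (lamL cl ce n y) (etaL ce n)).ex' (1 - T) u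
        (H317.ind (κ0 * y) ((lawOf n b y V a (sL k n y) (lamL cl ce n y) (etaL ce n)).Q
          (Sn n m) (1 - T) u)) ≤ (n : ℝ) ^ (-(b₀ / 8)) := by
  obtain ⟨K, hK⟩ : ∃ K, K = |Real.log (Cp 1)| + |Real.log (Cp 2)| + |Real.log (cE b)| +
    |Real.log (C3Amp.KR b)| := ⟨_, rfl⟩
  have k1 := abs_nonneg (Real.log (Cp 1))
  have k2 := abs_nonneg (Real.log (Cp 2))
  have k3 := abs_nonneg (Real.log (cE b))
  have k4 := abs_nonneg (Real.log (C3Amp.KR b))
  have l1 := le_abs_self (Real.log (Cp 1))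
  have l2 := le_abs_self (Real.log (Cp 2))
  have l3 := le_abs_self (Real.log (cE b))
  have l4 := le_abs_self (Real.log (C3Amp.KR b))
  filter_upwards [bw_ev K hx, nums_ev K 1 hx (by linarith) (by linarith)] with n h1 h2
  intro y g1 g2 V g3 g4 g5 a g6 g7 g8 T hT hT1 u hu0 hu m hm
  have hw := h1 y V a g1 g2 g3 g4 g5 g6 g7 g8
  obtain ⟨hN, hC⟩ := h2 y V a hw
  refine br_pt hw (by linarith) (by linarith) hN hC ?_ hT1 hu0 hu ?_
  · unfold tauB
    linarith
  · refine le_trans ?_ hm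
    unfold mB MB
    rw [show (1 : ℝ) - q - 40 * q = 1 - 41 * q by ring]
    exact (Nat.floor_le_ceil _)

end fin

end Vale.Agent.P146.H516.Br
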