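import Vale.Agent.P146.H516.BrLcW
import Vale.Agent.P146.H694.K6d
import Vale.Agent.P146.H615.NumU

/-!
# P146, the a priori numbers and the numbers of the exclusion of the big root, zone `Z2` of LC
-/

open MeasureTheory ProbabilityTheory Filter Set

namespace Vale.Agent.P146.H516.Br

open Vale.Agent.P146.H418 Vale.Agent.P146.H529 Vale.Agent.P146.H470 Vale.Agent.P146.H412
  Vale.Agent.P146.H75 Vale.Agent.P146.H516

set_option linter.unusedSectionVars false

/-- the law of LC -/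
noncomputable abbrev LL (k ce cl b : ℝ) (n : ℕ) (y V a : ℝ) : Law :=
  lawOf n b y V a (sL k n y) (lamL cl ce n y) (etaL ce n)

/-- the unit of the window of the bonds -/
noncomputable def tauB (q : ℝ) (n : ℕ) (y : ℝ) : ℝ := (n : ℝ) ^ (-q) * y ^ 2 / 16

/-- the a priori size -/
noncomputable def UB (q : ℝ) (n : ℕ) (y : ℝ) : ℝ := (n : ℝ) ^ (3 * q) * y

theorem nums_ev {b₁ b₀ q k ce cl A κ0 b : ℝ} (K D : ℝ) (hx : BX b₁ b₀ q k ce cl A κ0 b)
    (hK1 : Real.log (Cp 1) ≤ K) (hK2 : Real.log (Cp 2) ≤ K) :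
    ∀ᶠ n : ℕ in atTop, ∀ y V a : ℝ, BW b₁ b₀ q k ce cl A κ0 b K n y V a →
      H694.Nums (LL k ce cl b n y V a) (1 - tauB q n y) (UB q n y) ((n : ℝ) ^ (-D))
        ((n : ℝ) ^ (-D)) ∧
      ∀ (S : Finset (Fin n)) (t u : ℝ), 0 ≤ t → t ≤ 1 - tauB q n y → 0 ≤ u → u ≤ 1 →
        (LL k ce cl b n y V a).ex' t u
          (H317.ind (UB q n y ^ 2) (CC (LL k ce cl b n y V a) S t u)) ≤ (n : ℝ) ^ (-D) := by
  have hq := hx.q0
  have hb : 0 < b := by linarith [hx.b1']
  filter_upwards [mom_ev1 (b := b) (e := 1 / 12) (s0 := q) (s1 := 2 * q) hb (by norm_num) hq.le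
      (by linarith),
    tail_ev1 (b := b) (e := 1 / 12) (s0 := q) (s1 := 2 * q) (s2 := 2 * q) D hb (by norm_num)
      hq.le (by linarith) (by linarith),
    tail_ap (b := b) (D := 2 * D) hx.cl0 hb] with n h2 h3 h4
  intro y V a hw
  obtain ⟨f1, f2, f3, f4, f5, f6, f7, f8, f9, f10, f11, f12, f13, f14, f15, f16, f17, f18, f19,
    f20, f21⟩ := hw.facts
  obtain ⟨k1, k2, k3, k4, k5, k6, k7, k8, k9, k10, k11, k12⟩ := hw.bd
  obtain ⟨s1, s2, s3⟩ := hw.s_sq
  obtain ⟨hAd, v1, v2⟩ := hw.adm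
  have hn := hw.n0
  have hy := hw.y0
  have hV := hw.V0
  have hpar := hw.par
  have hyb : y ^ 2 * b ^ 2 ≤ 4 := by linarith
  have hCp : ∀ p, 0 < Cp p := fun p => by
    unfold Cp
    positivity
  have hc1 := hCp 1
  have hc2 := hCp 2
  have hτ : 0 < tauB q n y := by
    unfold tauB
    positivity
  have hU : 0 < UB q n y := by
    unfold UB
    positivity
  have hnn : 0 < n := by exact_mod_cast hn
  have hsz : ∀ t, t ≤ 1 - tauB q n y → 0 < 1 - t ∧
      4 * ((n : ℝ) ^ (2 * q) * y ^ 4) / (b ^ 2 * (1 - t)) ≤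
        4 * ((n : ℝ) ^ (2 * q) * y ^ 4) / (b ^ 2 * tauB q n y) := by
    intro t ht
    have h1 : tauB q n y ≤ 1 - t := by linarith
    have h0 : 0 < 1 - t := by linarith
    exact ⟨h0, by gcongr⟩
  have hX0 : 0 < 4 * ((n : ℝ) ^ (2 * q) * y ^ 4) / (b ^ 2 * tauB q n y) := by positivity
  have n1 : Cp 1 * (4 * ((n : ℝ) ^ (2 * q) * y ^ 4) / (b ^ 2 * tauB q n y)) ≤ UB q n y ^ 2 := by
    unfold tauB UB
    have c4 := log_c 4 (by norm_num)
    have c16 := log_c 16 (by norm_num)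
    refine le_of_log (by positivity) (by positivity) ?_
    simp (disch := positivity) only [Real.log_mul, Real.log_div, Real.log_rpow, Real.log_pow]
    push_cast
    linarith
  have n2 : 256 * (Cp 2 * (4 * ((n : ℝ) ^ (2 * q) * y ^ 4) / (b ^ 2 * tauB q n y)) ^ 2) ≤
      UB q n y ^ 4 := by
    unfold tauB UB
    have c4 := log_c 4 (by norm_num)
    have c16 := log_c 16 (by norm_num)
    have c256 := log_c 256 (by norm_num)
    refine le_of_log (by positivity) (by positivity) ?_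
    simp (disch := positivity) only [Real.log_mul, Real.log_div, Real.log_rpow, Real.log_pow]
    push_cast
    linarith
  have n3 : ((n : ℝ) ^ (2 * q) * y ^ 2) ^ 2 ≤ UB q n y ^ 2 * tauB q n y := by
    unfold tauB UB
    have c16 := log_c 16 (by norm_num)
    refine le_of_log (by positivity) (by positivity) ?_
    simp (disch := positivity) only [Real.log_mul, Real.log_div, Real.log_rpow, Real.log_pow]
    push_cast
    linarith
  have hmom := h2 (V - sL k n y ^ 2) (sL k n y) (lamL cl ce n y) (etaL ce n) y V a hpar hyb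
  have htl := h3 (V - sL k n y ^ 2) (sL k n y) (lamL cl ce n y) (etaL ce n) y V a hpar hyb
  have hUT : ∀ t, t ≤ 1 - tauB q n y →
      ((n : ℝ) ^ (2 * q) * y ^ 2) ^ 2 ≤ UB q n y ^ 2 * (1 - t) := by
    intro t ht
    refine n3.trans (mul_le_mul_of_nonneg_left (by linarith) (sq_nonneg _))
  refine ⟨⟨fun S t u ht0 ht hu0 hu => ?_, fun S t u ht0 ht hu0 hu => ?_,
    fun t u ht0 ht hu0 hu => ?_, fun S t u ht0 ht hu0 hu => ?_⟩,
    fun S t u ht0 ht hu0 hu => ?_⟩
  · obtain ⟨g0, g1⟩ := hsz t ht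
    have g2 := hmom t ht0 (by linarith) u ⟨hu0, hu⟩ S 2
    have g3 := H412.mom_Q (L := LL k ce cl b n y V a) hAd.lam0 hAd.η0 hnn S t u 2
    have g4 : (LL k ce cl b n y V a).ex' t u
        (fun z => (LL k ce cl b n y V a).Q S t u z ^ 4) ≤
        (1 + etaL ce n) ^ 8 * (Cp 2 *
          (4 * ((n : ℝ) ^ (2 * q) * y ^ 4) / (b ^ 2 * (1 - t))) ^ 2) := by
      refine (show (LL k ce cl b n y V a).ex' t u
        (fun z => (LL k ce cl b n y V a).Q S t u z ^ 4) ≤ _ from g3).trans ?_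
      exact mul_le_mul_of_nonneg_left g2 (by
        show 0 ≤ (1 + etaL ce n) ^ 8
        positivity)
    refine g4.trans (le_trans ?_ n2)
    have g5 : (1 + etaL ce n) ^ 8 ≤ 256 := by
      calc (1 + etaL ce n) ^ 8 ≤ (2 : ℝ) ^ 8 :=
            pow_le_pow_left₀ (by linarith) (by linarith) 8
        _ = 256 := by norm_num
    have g6 : (4 * ((n : ℝ) ^ (2 * q) * y ^ 4) / (b ^ 2 * (1 - t))) ^ 2 ≤
        (4 * ((n : ℝ) ^ (2 * q) * y ^ 4) / (b ^ 2 * tauB q n y)) ^ 2 :=
      pow_le_pow_left₀ (by positivity) g1 2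
    gcongr
  · obtain ⟨g0, g1⟩ := hsz t ht
    have g2 := hmom t ht0 (by linarith) u ⟨hu0, hu⟩ S 1
    simp only [pow_one] at g2
    refine g2.trans (le_trans ?_ n1)
    exact mul_le_mul_of_nonneg_left g1 hc1.le
  · have g1 := h4 Bool Bool (H418.cb t) (H418.cf (V - sL k n y ^ 2) u) (lamL cl ce n y)
      (sL k n y) (etaL ce n) y V a (sum_cb ht0 (by linarith))
      (by
        rw [sum_cf (by linarith) hu0 hu]
        ring) (by linarith) s1 k7 k4 (by linarith)
      (by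
        refine le_of_eq ?_
        unfold lamL etaL
        have e1 : (n : ℝ) ^ (cl + ce) * (n : ℝ) ^ (-ce) = (n : ℝ) ^ cl := by
          rw [← Real.rpow_add hn]
          congr 1
          ring
        rw [← e1]
        field_simp) hy (by linarith) hw.sg
    refine (show H615.PstL (LL k ce cl b n y V a) t u ≤ _ from g1).trans (le_of_eq ?_)
    rw [← Real.rpow_natCast, ← Real.rpow_mul hn.le]
    congr 1
    push_cast
    ring
  · obtain ⟨g0, g1⟩ := hsz t ht
    exact (htl t ht0 (by linarith) u ⟨hu0, hu⟩ S (UB q n y) hU.le (hUT t ht)).2.1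
  · obtain ⟨g0, g1⟩ := hsz t ht
    exact (htl t ht0 (by linarith) u ⟨hu0, hu⟩ S (UB q n y) hU.le (hUT t ht)).1

/-! ### the hidden sites -/

/-- the real number of the hidden sites -/
noncomputable def MB (q : ℝ) (n : ℕ) (y : ℝ) : ℝ := (n : ℝ) ^ (1 - 41 * q) * y ^ 2

/-- the lower end of the window of the hidden sites -/
noncomputable def mA (q : ℝ) (n : ℕ) (y : ℝ) : ℕ := ⌊MB q n y / 2⌋₊

/-- the upper end of the window of the hidden sites -/
noncomputable def mB (q : ℝ) (n : ℕ) (y : ℝ) : ℕ := ⌊MB q n y⌋₊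

section

variable {b₁ b₀ q k ce cl A κ0 b K : ℝ} {n : ℕ} {y V a : ℝ}

lemma BW.mm (h : BW b₁ b₀ q k ce cl A κ0 b K n y V a) :
    8 ≤ MB q n y ∧ MB q n y / 4 ≤ mA q n y ∧ mA q n y ≤ mB q n y ∧
      (mB q n y : ℝ) ≤ MB q n y ∧ MB q n y / 2 ≤ (mB q n y : ℝ) - mA q n y + 1 ∧
      2 ≤ mA q n y ∧ 2 * mB q n y ≤ n ∧ MB q n y = n * ((n : ℝ) ^ (-(41 * q)) * y ^ 2) := by
  obtain ⟨f1, f2, f3, f4, f5, f6, f7, f8, f9, f10, f11, f12, f13, f14, f15, f16, f17, f18, f19,
    f20, f21⟩ := h.facts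
  have hn := h.n0
  have hy := h.y0
  have c8 := log_c 8 (by norm_num)
  have c2 := log_c 2 (by norm_num)
  have h8 : 8 ≤ MB q n y := by
    unfold MB
    refine le_of_log (by positivity) (by positivity) ?_
    simp (disch := positivity) only [Real.log_mul, Real.log_rpow, Real.log_pow]
    push_cast
    linarith
  have hN : MB q n y ≤ n / 2 := by
    unfold MB
    refine le_of_log (by positivity) (by positivity) ?_
    simp (disch := positivity) only [Real.log_mul, Real.log_rpow, Real.log_pow, Real.log_div]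
    push_cast
    linarith
  have a1 : (mA q n y : ℝ) ≤ MB q n y / 2 := Nat.floor_le (by linarith)
  have a2 : MB q n y / 2 - 1 < mA q n y := by
    have := Nat.lt_floor_add_one (MB q n y / 2)
    unfold mA
    linarith
  have b1 : (mB q n y : ℝ) ≤ MB q n y := Nat.floor_le (by linarith)
  have b2 : MB q n y - 1 < mB q n y := by
    have := Nat.lt_floor_add_one (MB q n y)
    unfold mB
    linarith
  refine ⟨h8, by linarith, Nat.floor_le_floor (by linarith), b1, by linarith, ?_, ?_, ?_⟩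
  · exact Nat.le_floor (by push_cast; linarith)
  · have : (2 * mB q n y : ℝ) ≤ n := by linarith
    exact_mod_cast this
  · unfold MB
    rw [show (1 : ℝ) - 41 * q = 1 + -(41 * q) by ring, Real.rpow_add hn, Real.rpow_one]
    ring

/-- the sizes of `kp` and of the parameter of the slope -/
lemma BW.kp (h : BW b₁ b₀ q k ce cl A κ0 b K n y V a) {kp : ℝ} (hkp : kp = (1 + a) / b) :
    0 < kp ∧ kp ≤ 1 ∧ kp * b = 1 + a ∧ kp = 1 - (1 - y) * H615.rq b y a ∧
      |H615.rq b y a| ≤ 1 := by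
  obtain ⟨k1, k2, k3, k4, k5, k6, k7, k8, k9, k10, k11, k12⟩ := h.bd
  have hb : 1 < b := h.ex.b1'
  have hb0 : 0 < b := by linarith
  have hy := h.y0
  obtain ⟨l1, l2⟩ := abs_le.1 k10
  have e1 : kp * b = 1 + a := by
    rw [hkp]
    field_simp
  have p1 : kp ≤ 1 := by
    rw [hkp, div_le_iff₀ hb0]
    linarith
  have p2 : y ≤ kp := by
    rw [hkp, le_div_iff₀ hb0]
    linarith
  have hy1 : y < 1 := by linarith
  refine ⟨by linarith, p1, e1, ?_, ?_⟩
  · rw [H615.rq_eq hy1, hkp]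
  · unfold H615.rq
    rw [← hkp, abs_le]
    have h1 : 0 < 1 - y := by linarith
    constructor
    · rw [le_div_iff₀ h1]
      nlinarith
    · rw [div_le_iff₀ h1]
      linarith

lemma cc_LL {kp : ℝ} (hkp : kp = (1 + a) / b) :
    (LL k ce cl b n y V a).c = (LL k ce cl b n y V a).s ^ 2 * (LL k ce cl b n y V a).n * kp := by
  show H529.cc n b (sL k n y) a = sL k n y ^ 2 * n * kp
  unfold H529.cc
  rw [hkp]
  ring

/-- the absolute value of the slope -/
lemma BW.a_abs (h : BW b₁ b₀ q k ce cl A κ0 b K n y V a) : |a| ≤ (n : ℝ) ^ (4 * q) * y ^ 2 := by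
  obtain ⟨f1, f2, f3, f4, f5, f6, f7, f8, f9, f10, f11, f12, f13, f14, f15, f16, f17, f18, f19,
    f20, f21⟩ := h.facts
  have hn := h.n0
  have hy := h.y0
  have hA : 0 < A := by linarith [h.ex.A1]
  rw [abs_le]
  refine ⟨h.al, h.au.trans ?_⟩
  refine le_of_log (by positivity) (by positivity) ?_
  simp (disch := positivity) only [Real.log_mul, Real.log_rpow, Real.log_pow]
  push_cast
  linarith

/-- the monomials of the linear coefficient -/
lemma BW.tau_mon (h : BW b₁ b₀ q k ce cl A κ0 b K n y V a) :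
    4 * tauB q n y ≤ 1 ∧ 4 * tauB q n y ≤ (n : ℝ) ^ (4 * q) * y ^ 2 ∧
      (n : ℝ) ^ (-(41 * q)) * y ^ 2 ≤ (n : ℝ) ^ (4 * q) * y ^ 2 ∧
      6 * ((n : ℝ) ^ (4 * q) * y ^ 2) ≤ (n : ℝ) ^ (5 * q) * y ^ 2 ∧ 0 < tauB q n y := by
  obtain ⟨f1, f2, f3, f4, f5, f6, f7, f8, f9, f10, f11, f12, f13, f14, f15, f16, f17, f18, f19,
    f20, f21⟩ := h.facts
  have hn := h.n0
  have hy := h.y0
  have c4 := log_c 4 (by norm_num)
  have c16 : 0 ≤ Real.log 16 := Real.log_nonneg (by norm_num)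
  have c6 := log_c 6 (by norm_num)
  unfold tauB
  refine ⟨?_, ?_, ?_, ?_, by positivity⟩
  · refine le_of_log (by positivity) (by positivity) ?_
    simp (disch := positivity) only [Real.log_mul, Real.log_rpow, Real.log_pow, Real.log_div,
      Real.log_one]
    push_cast
    linarith only [f1, f2, f11, f12, f13, f19, c4, c16]
  · refine le_of_log (by positivity) (by positivity) ?_
    simp (disch := positivity) only [Real.log_mul, Real.log_rpow, Real.log_pow, Real.log_div]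
    push_cast
    linarith only [f1, f2, c4, c16]
  · refine le_of_log (by positivity) (by positivity) ?_
    simp (disch := positivity) only [Real.log_mul, Real.log_rpow, Real.log_pow]
    push_cast
    linarith only [f1, f2]
  · refine le_of_log (by positivity) (by positivity) ?_
    simp (disch := positivity) only [Real.log_mul, Real.log_rpow, Real.log_pow]
    push_cast
    linarith only [f1, f2, c6]

/-- the linear coefficient, one `n` -/
lemma tau_core {n m kp b a t X1 X2 X3 X4 : ℝ} (p3 : kp * b = 1 + a) (hm0 : 0 ≤ m)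
    (hmn : m ≤ n * X1) (hm2 : 2 * m ≤ n) (hn : 0 < n) (hX1 : 0 ≤ X1) (l1 : -(1 / 1000) ≤ a)
    (l2 : a ≤ 1 / 1000) (haa : |a| ≤ X2) (hau : a ≤ X3) (hX3 : 0 ≤ X3) (ht0 : 0 ≤ t)
    (ht1 : t ≤ 1) (hX4 : 1 - t ≤ X2) (h12 : X1 ≤ X2) (h5 : 6 * X2 ≤ X4) :
    |n / (n - m) - kp ^ 2 * b ^ 2 * t| ≤ X4 ∧ -(n / (n - m) - kp ^ 2 * b ^ 2 * t) ≤ 3 * X3 := by
  have hnm : 0 < n - m := by linarith
  have e1 : n / (n - m) - kp ^ 2 * b ^ 2 * t =
      m / (n - m) + (1 - t) - (2 * a + a ^ 2) * t := by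
    rw [← mul_pow, p3]
    field_simp
    ring
  have r1 : 0 ≤ m / (n - m) := by positivity
  have r2 : m / (n - m) ≤ 2 * X1 := by
    rw [div_le_iff₀ hnm]
    nlinarith
  have r7 : |(2 * a + a ^ 2) * t| ≤ 3 * |a| := by
    have e2 : (2 * a + a ^ 2) * t = a * ((2 + a) * t) := by ring
    rw [e2, abs_mul, mul_comm 3]
    refine mul_le_mul_of_nonneg_left ?_ (abs_nonneg a)
    rw [abs_of_nonneg (mul_nonneg (by linarith) ht0)]
    nlinarith
  obtain ⟨r8, r9⟩ := abs_le.1 r7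
  rw [e1]
  constructor
  · rw [abs_le]
    constructor <;> linarith
  · have r10 : (2 * a + a ^ 2) * t ≤ 3 * X3 := by
      rcases le_or_gt a 0 with h0 | h0
      · have : 2 * a + a ^ 2 ≤ 0 := by nlinarith
        have := mul_nonpos_of_nonpos_of_nonneg this ht0
        linarith
      · have h1 : |a| = a := abs_of_pos h0
        rw [h1] at r9
        linarith
    linarith

/-- the linear coefficient of the cubic equation -/
lemma BW.tau (h : BW b₁ b₀ q k ce cl A κ0 b K n y V a) {kp : ℝ} (hkp : kp = (1 + a) / b)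
    {m : ℕ} (hm : m ≤ mB q n y) {t : ℝ} (ht0 : 1 - 4 * tauB q n y ≤ t) (ht1 : t ≤ 1) :
    |H694.tauL (LL k ce cl b n y V a) kp m t| ≤ (n : ℝ) ^ (5 * q) * y ^ 2 ∧
      -H694.tauL (LL k ce cl b n y V a) kp m t ≤ 3 * (A * ((n : ℝ) ^ (-(10 * q)) * y ^ 2)) := by
  obtain ⟨m1, m2, m3, m4, m5, m6, m7, m8⟩ := h.mm
  obtain ⟨-, -, -, -, -, -, -, -, -, k10, -, -⟩ := h.bd
  obtain ⟨-, -, p3, -, -⟩ := h.kp hkp
  obtain ⟨t1, t2, t3, t4, t5⟩ := h.tau_mon
  have hn := h.n0
  have hy := h.y0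
  have hA : 0 < A := by linarith only [h.ex.A1]
  have haa := h.a_abs
  obtain ⟨l1, l2⟩ := abs_le.1 k10
  have hmn : (m : ℝ) ≤ n * ((n : ℝ) ^ (-(41 * q)) * y ^ 2) := by
    rw [← m8]
    have : (m : ℝ) ≤ mB q n y := by exact_mod_cast hm
    linarith
  have hm2 : 2 * (m : ℝ) ≤ n := by
    have h1 : 2 * m ≤ n := by omega
    exact_mod_cast h1
  exact tau_core p3 (Nat.cast_nonneg m) hmn hm2 hn (by positivity) l1 l2 haa h.au (by positivity)
    (by linarith) ht1 (by linarith) t3 t4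

end

end Vale.Agent.P146.H516.Br
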