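import Vale.Agent.P146.H516.Ap2
import Vale.Agent.P146.H470.LowA0
import Vale.Agent.P146.H418.Par
import Vale.Agent.P146.H75.LcLink
import Vale.Agent.P146.H615.ErSk

/-!
# P146, the window of the zone `Z2` of LC

`BX` : the exponents; `BW` : the window in logarithmic form; the elementary sizes.
-/

open MeasureTheory ProbabilityTheory Filter Set

namespace Vale.Agent.P146.H516.Br

open Vale.Agent.P146.H418 Vale.Agent.P146.H529 Vale.Agent.P146.H470 Vale.Agent.P146.H412
  Vale.Agent.P146.H75 Vale.Agent.P146.H516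

set_option linter.unusedSectionVars false

/-- the exponents and the constants -/
structure BX (b₁ b₀ q k ce cl A κ0 b : ℝ) : Prop where
  q0 : 0 < q
  b0q : 1000 * q ≤ b₀
  bb : b₀ ≤ b₁
  b1 : b₁ ≤ 1 / 400
  k0 : q ≤ k
  ce0 : 1 / 10 ≤ ce
  cl0 : 0 < cl
  sum : ce + k + cl ≤ 1 / 2
  A1 : 1 ≤ A
  κ0 : 0 < κ0
  b1' : 1 < b

/-- the constant of the window -/
noncomputable def KB (A κ0 b K : ℝ) : ℝ :=
  100000 + 10 * |Real.log b| + 10 * |Real.log (b - 1)| + 10 * |Real.log A| +
    10 * |Real.log κ0| + 10 * |K|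

/-- The window. -/
structure BW (b₁ b₀ q k ce cl A κ0 b K : ℝ) (n : ℕ) (y V a : ℝ) : Prop where
  ex : BX b₁ b₀ q k ce cl A κ0 b
  n0 : (0 : ℝ) < n
  y0 : 0 < y
  V0 : 0 < V
  cst : KB A κ0 b K ≤ q / 100 * Real.log n
  yl : -b₁ * Real.log n ≤ Real.log y
  yu : Real.log y ≤ -b₀ * Real.log n + Real.log 2
  Vl : 5 * Real.log y ≤ Real.log A + Real.log V
  Vu : Real.log V ≤ Real.log A + (-(23 * q) * Real.log n + 3 * Real.log y)
  ap : H178.AP b q n y (2 * V)
  sg : SG n b y V a
  al : -((n : ℝ) ^ (4 * q) * y ^ 2) ≤ a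
  au : a ≤ A * ((n : ℝ) ^ (-(10 * q)) * y ^ 2)

theorem bw_ev {b₁ b₀ q k ce cl A κ0 b : ℝ} (K : ℝ) (hx : BX b₁ b₀ q k ce cl A κ0 b) :
    ∀ᶠ n : ℕ in atTop, ∀ y V a : ℝ, (n : ℝ) ^ (-b₁) ≤ y → y ≤ 2 * (n : ℝ) ^ (-b₀) →
      y ^ 5 ≤ A * V → V ≤ A * ((n : ℝ) ^ (-(23 * q)) * y ^ 3) → H178.AP b q n y (2 * V) →
      SG n b y V a → -((n : ℝ) ^ (4 * q) * y ^ 2) ≤ a →
      a ≤ A * ((n : ℝ) ^ (-(10 * q)) * y ^ 2) → BW b₁ b₀ q k ce cl A κ0 b K n y V a := by
  have hθ : 0 < q / 100 := by
    have := hx.q0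
    positivity
  filter_upwards [ev_log hθ (KB A κ0 b K), eventually_ge_atTop 1] with n h1 h2 y V a g1 g2 g3 g4
    g5 g6 g7 g8
  have hn1 : (1 : ℝ) ≤ n := by exact_mod_cast h2
  have hn0 : (0 : ℝ) < n := by linarith
  have hA0 : 0 < A := by linarith [hx.A1]
  have hy : 0 < y := lt_of_lt_of_le (Real.rpow_pos_of_pos hn0 _) g1
  have hV : 0 < V := by
    have : 0 < A * V := lt_of_lt_of_le (by positivity) g3
    exact (pos_iff_pos_of_mul_pos this).1 hA0
  have k1 := Real.log_le_log (by positivity) g1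
  have k2 := Real.log_le_log hy g2
  have k3 := Real.log_le_log (by positivity) g3
  have k4 := Real.log_le_log hV g4
  simp (disch := positivity) only [Real.log_mul, Real.log_rpow, Real.log_pow] at k1 k2 k3 k4
  push_cast at k3 k4
  exact ⟨hx, hn0, hy, hV, h1, by linarith, by linarith, by linarith, by linarith, g5, g6, g7, g8⟩

section

variable {b₁ b₀ q k ce cl A κ0 b K : ℝ} {n : ℕ} {y V a : ℝ}

/-- all the facts in logarithmic form -/
lemma BW.facts (h : BW b₁ b₀ q k ce cl A κ0 b K n y V a) :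
    0 < q * Real.log n ∧ 10000 ≤ q / 1000 * Real.log n ∧ 0 ≤ Real.log b ∧
      Real.log b ≤ q / 1000 * Real.log n ∧ -Real.log (b - 1) ≤ q / 1000 * Real.log n ∧
      0 ≤ Real.log A ∧ Real.log A ≤ q / 1000 * Real.log n ∧
      -Real.log κ0 ≤ q / 1000 * Real.log n ∧ Real.log κ0 ≤ q / 1000 * Real.log n ∧
      K ≤ q / 1000 * Real.log n ∧
      1000 * (q * Real.log n) ≤ b₀ * Real.log n ∧ b₀ * Real.log n ≤ b₁ * Real.log n ∧
      400 * (b₁ * Real.log n) ≤ Real.log n ∧ q * Real.log n ≤ k * Real.log n ∧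
      Real.log n ≤ 10 * (ce * Real.log n) ∧ 0 < cl * Real.log n ∧
      2 * (ce * Real.log n + k * Real.log n + cl * Real.log n) ≤ Real.log n ∧
      -b₁ * Real.log n ≤ Real.log y ∧
      Real.log y ≤ -b₀ * Real.log n + q / 1000 * Real.log n ∧
      5 * Real.log y - q / 1000 * Real.log n ≤ Real.log V ∧
      Real.log V ≤ -(23 * q) * Real.log n + 3 * Real.log y + q / 1000 * Real.log n := by
  obtain ⟨ex, hn0, hy, hV, cst, yl, yu, Vl, Vu, ap, sg, al, au⟩ := h
  have hq := ex.q0
  unfold KB at cst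
  have k1 := abs_nonneg (Real.log b)
  have k2 := abs_nonneg (Real.log (b - 1))
  have k3 := abs_nonneg (Real.log A)
  have k4 := abs_nonneg (Real.log κ0)
  have k5 := abs_nonneg K
  have l1 := le_abs_self (Real.log b)
  have l2 := neg_abs_le (Real.log (b - 1))
  have l3 := le_abs_self (Real.log A)
  have l4 := neg_abs_le (Real.log κ0)
  have l4' := le_abs_self (Real.log κ0)
  have l5 := le_abs_self K
  have hL0 : 0 < Real.log n := by
    have h1 : 0 < q / 100 * Real.log n := by linarith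
    exact (pos_iff_pos_of_mul_pos h1).1 (by positivity)
  have hbb := Real.log_nonneg ex.b1'.le
  have hAA := Real.log_nonneg ex.A1
  have m1 := mul_le_mul_of_nonneg_right ex.b0q hL0.le
  have m2 := mul_le_mul_of_nonneg_right ex.bb hL0.le
  have m3 := mul_le_mul_of_nonneg_right ex.b1 hL0.le
  have m4 := mul_le_mul_of_nonneg_right ex.k0 hL0.le
  have m5 := mul_le_mul_of_nonneg_right ex.ce0 hL0.le
  have m6 := mul_pos ex.cl0 hL0
  have m7 := mul_le_mul_of_nonneg_right ex.sum hL0.le
  have m8 := mul_pos hq hL0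
  have c2 := log_c 2 (by norm_num)
  refine ⟨m8, by linarith, hbb, by linarith, by linarith, hAA, by linarith, by linarith,
    by linarith, by linarith, by linarith, by linarith, by linarith, by linarith, by linarith,
    m6, by linarith, yl, by linarith, by linarith, by linarith⟩

lemma BW.one_lt (h : BW b₁ b₀ q k ce cl A κ0 b K n y V a) : (1 : ℝ) < n := by
  obtain ⟨f1, f2, f3, f4, f5, f6, f7, f8, f9, f10, f11, f12, f13, f14, f15, f16, f17, f18, f19,
    f20, f21⟩ := h.facts
  by_contra hc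
  push Not at hc
  have := Real.log_nonpos h.n0.le hc
  linarith

lemma BW.s_sq (h : BW b₁ b₀ q k ce cl A κ0 b K n y V a) :
    0 < sL k n y ∧ sL k n y ^ 2 = (n : ℝ) ^ (-k) * y ^ 5 ∧
      Real.log (sL k n y) = (1 / 2) * (-k * Real.log n + 5 * Real.log y) := by
  have hn := h.n0
  have hy := h.y0
  refine ⟨Real.sqrt_pos.2 (by positivity), ?_, ?_⟩
  · unfold sL
    rw [Real.sq_sqrt (by positivity)]
  · unfold sL
    simp (disch := positivity) only [Real.log_mul, Real.log_rpow, Real.log_pow, Real.log_sqrt]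
    push_cast
    ring

/-- the elementary sizes -/
lemma BW.bd (h : BW b₁ b₀ q k ce cl A κ0 b K n y V a) :
    y ≤ 1 / 1000 ∧ V ≤ 1 / 1000 ∧ etaL ce n ≤ 1 / 1000 ∧ 0 < etaL ce n ∧
      sL k n y ^ 2 ≤ V / 1000 ∧ 1 ≤ lamL cl ce n y * etaL ce n ∧ 1 ≤ lamL cl ce n y ∧
      1000 * (y ^ 2 * b ^ 2) ≤ 1 ∧ (n : ℝ) ^ (-(1 / 6) + 1 / 12 : ℝ) ≤ y ∧ |a| ≤ 1 / 1000 ∧
      a ≤ b - 1 ∧ y * b ≤ 1 / 2 := by
  obtain ⟨f1, f2, f3, f4, f5, f6, f7, f8, f9, f10, f11, f12, f13, f14, f15, f16, f17, f18, f19,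
    f20, f21⟩ := h.facts
  obtain ⟨s1, s2, s3⟩ := h.s_sq
  have hn := h.n0
  have hy := h.y0
  have hV := h.V0
  have hb : 0 < b := by linarith [h.ex.b1']
  have hb1 : 0 < b - 1 := by linarith [h.ex.b1']
  have hA : 0 < A := by linarith [h.ex.A1]
  have c1 := log_c 1000 (by norm_num)
  have hη0 : 0 < etaL ce n := Real.rpow_pos_of_pos hn _
  have hη : etaL ce n ≤ 1 / 1000 := by
    unfold etaL
    refine le_of_log (by positivity) (by positivity) ?_
    simp (disch := positivity) only [Real.log_div, Real.log_one, Real.log_rpow]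
    linarith
  have hl0 : 0 < lamL cl ce n y := by
    unfold lamL
    positivity
  have hle : 1 ≤ lamL cl ce n y * etaL ce n := by
    unfold lamL etaL
    refine le_of_log (by positivity) (by positivity) ?_
    simp (disch := positivity) only [Real.log_mul, Real.log_one, Real.log_div, Real.log_rpow]
    linarith
  have ha1 : A * ((n : ℝ) ^ (-(10 * q)) * y ^ 2) ≤ 1 / 1000 := by
    refine le_of_log (by positivity) (by positivity) ?_
    simp (disch := positivity) only [Real.log_mul, Real.log_rpow, Real.log_pow, Real.log_div,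
      Real.log_one]
    push_cast
    linarith
  have ha2 : (n : ℝ) ^ (4 * q) * y ^ 2 ≤ 1 / 1000 := by
    refine le_of_log (by positivity) (by positivity) ?_
    simp (disch := positivity) only [Real.log_mul, Real.log_rpow, Real.log_pow, Real.log_div,
      Real.log_one]
    push_cast
    linarith
  have ha3 : A * ((n : ℝ) ^ (-(10 * q)) * y ^ 2) ≤ b - 1 := by
    refine le_of_log (by positivity) hb1 ?_
    simp (disch := positivity) only [Real.log_mul, Real.log_rpow, Real.log_pow]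
    push_cast
    linarith
  have hyb : 1000 * (y ^ 2 * b ^ 2) ≤ 1 := by
    refine le_of_log (by positivity) (by positivity) ?_
    simp (disch := positivity) only [Real.log_mul, Real.log_pow, Real.log_one]
    push_cast
    linarith
  refine ⟨?_, ?_, hη, hη0, ?_, hle, ?_, hyb, ?_, ?_, h.au.trans ha3, ?_⟩
  · refine le_of_log (by positivity) (by positivity) ?_
    simp (disch := positivity) only [Real.log_div, Real.log_one]
    linarith
  · refine le_of_log (by positivity) (by positivity) ?_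
    simp (disch := positivity) only [Real.log_div, Real.log_one]
    linarith
  · rw [s2]
    refine le_of_log (by positivity) (by positivity) ?_
    simp (disch := positivity) only [Real.log_div, Real.log_pow, Real.log_mul, Real.log_rpow]
    push_cast
    linarith
  · have := hη0.le
    nlinarith
  · refine le_of_log (by positivity) (by positivity) ?_
    simp (disch := positivity) only [Real.log_rpow]
    linarith
  · rw [abs_le]
    exact ⟨by linarith [h.al], by linarith [h.au]⟩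
  · nlinarith

lemma BW.adm (h : BW b₁ b₀ q k ce cl A κ0 b K n y V a) :
    H320.Adm (lawOf n b y V a (sL k n y) (lamL cl ce n y) (etaL ce n)) ∧
      V / 2 ≤ V - sL k n y ^ 2 ∧ V - sL k n y ^ 2 ≤ V := by
  obtain ⟨k1, k2, k3, k4, k5, k6, k7, k8, k9, k10, k11, k12⟩ := h.bd
  have hV := h.V0
  have hn : 0 < n := by
    have := h.n0
    exact_mod_cast this
  refine ⟨⟨hn, by show 0 < b; linarith [h.ex.b1'], ?_, ?_, k4.le, h.y0.le, ?_⟩, by linarith, ?_⟩
  · show 0 < V - sL k n y ^ 2
    linarith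
  · show 0 < lamL cl ce n y
    linarith
  · show y ≤ 1
    linarith
  · have := sq_nonneg (sL k n y)
    linarith

lemma BW.par (h : BW b₁ b₀ q k ce cl A κ0 b K n y V a) :
    Par1 b q (1 / 12) n (V - sL k n y ^ 2) (sL k n y) (lamL cl ce n y) (etaL ce n) y V a := by
  obtain ⟨k1, k2, k3, k4, k5, k6, k7, k8, k9, k10, k11, k12⟩ := h.bd
  have hV := h.V0
  obtain ⟨s1, s2, s3⟩ := h.s_sq
  exact ⟨by linarith, by ring, by linarith, s1, k7, k4, by linarith, k6, k9,
    by linarith, h.ap, h.sg⟩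

end

end Vale.Agent.P146.H516.Br
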