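import Vale.Agent.P146.H516.BrC
import Vale.Agent.P146.H122.S3b

/-!
# P146: the exclusion of the big root, eventually in the size and the unit

Port of `H516.BC.brC` to `EV`: `brCS` (level `C1 y` for `al ≤ Ca y²`).
-/

open MeasureTheory ProbabilityTheory Filter Set

namespace Vale.Agent.P146.S3

open Vale.Agent.P146.H418 Vale.Agent.P146.H529 Vale.Agent.P146.H470 Vale.Agent.P146.H412
  Vale.Agent.P146.H516 Vale.Agent.P146.H516.Br Vale.Agent.P146.H516.BC Vale.Agent.P146.H615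
  Vale.Agent.P146.H122

set_option linter.unusedSectionVars false

/-- the window, eventually in the size and the unit -/
theorem cwS {b₁ A b : ℝ} (K : ℝ) (hb : 1 < b) (hA : 1 ≤ A) (hb₁ : 0 < b₁) :
    EV fun n q => ∀ y V al s lam η : ℝ, KW (1 / 6) b₁ q A b n y V al s lam η →
      CW (1 / 6) b₁ q A b K n y V al s lam η ∧ ∀ T, 0 < T → T ≤ 1 → ∀ u ∈ Icc (0 : ℝ) 1,
        ApN q 2 (lawOf n b y V al s lam η) T u := by
  have hb0 : 0 < b := by linarith
  have hb10 : 0 < b - 1 := by linarith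
  filter_upwards [apn_ev (b₁ := b₁) 2 hb0 hA hb₁,
    ev_log (show (0 : ℝ) < 1 / 1000 by norm_num) K,
    ev_log (show (0 : ℝ) < 1 / 1000 by norm_num) (-Real.log (b - 1)), ev_q0,
    ev_qle (show 0 < b₁ / 10000 by positivity)] with ⟨n, q⟩ h1 h2 h3 hq hq1
  dsimp only at h1 h2 h3 hq hq1 ⊢
  intro y V al s lam η hkw
  obtain ⟨hw, hap⟩ := h1 y V al s lam η hkw
  obtain ⟨f1, f2, f3, f4, f5, f6, f7, f8, f9, f10, f11, f12, f13, f14⟩ := hw.facts
  have hn := hw.env.n0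
  have hy := hw.env.y0
  have hL := hw.env.L1
  have hb₁q : 10000 * q ≤ b₁ := by linarith
  have m2 : 10000 * q * Real.log n ≤ b₁ * Real.log n :=
    mul_le_mul_of_nonneg_right hb₁q (by linarith)
  have yu := hw.env.yu
  have c2 : 0 ≤ Real.log 2 := Real.log_nonneg (by norm_num)
  have c2' := log_c 2 (by norm_num)
  refine ⟨⟨hw, hb₁q, by linarith, hb.le, ?_, ?_⟩, hap⟩
  · refine (le_abs_self al).trans (hw.al_abs.trans ?_)
    refine le_of_log (by positivity) hb10 ?_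
    simp (disch := positivity) only [Real.log_mul, Real.log_rpow, Real.log_pow]
    push_cast
    linarith only [f1, m2, yu, h3]
  · refine le_of_log (by positivity) (by positivity) ?_
    simp (disch := positivity) only [Real.log_mul, Real.log_div, Real.log_one]
    linarith only [f1, f2, f3, m2, yu, c2']

/-- **(P2) of S3 in the unit: the exclusion of the big root at the level `C1 y`.** -/
theorem brCS {b : ℝ} (hb : 1 < b) {Ca : ℝ} (hCa : 1 ≤ Ca) : ∃ C1 : ℝ, 0 < C1 ∧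
    ∀ {b₁ A : ℝ}, 0 < b₁ → 1 ≤ A → EV fun n q =>
    ∀ y V al s lam η : ℝ, KW (1 / 6) b₁ q A b n y V al s lam η →
      al ≤ Ca * y ^ 2 → ∀ T ∈ Icc (H122.T1 q n y / 4) 1,
      ∀ u ∈ Icc (0 : ℝ) (u1 q n), ∀ m : ℕ, m1 q n y ≤ m + 1 →
      (lawOf n b y V al s lam η).ex' (1 - T) u (H317.ind (C1 * y)
        ((lawOf n b y V al s lam η).Q (Sn n m) (1 - T) u)) ≤ (n : ℝ) ^ (-(400 * q)) := by
  refine ⟨384 * Ca, by positivity, ?_⟩
  intro b₁ A hb₁ hA
  obtain ⟨K, hK⟩ : ∃ K, K = |Real.log (H694.CE b (30 * b ^ 3))| + |Real.log (C3Amp.KR b)| :=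
    ⟨_, rfl⟩
  have k3 := abs_nonneg (Real.log (H694.CE b (30 * b ^ 3)))
  have k4 := abs_nonneg (Real.log (C3Amp.KR b))
  have l3 := le_abs_self (Real.log (H694.CE b (30 * b ^ 3)))
  have l4 := le_abs_self (Real.log (C3Amp.KR b))
  filter_upwards [cwS (b₁ := b₁) K hb hA hb₁, ev_ge 1, ev_q0] with ⟨n, q⟩ h1 hn1 hq
  dsimp only at h1 hn1 hq ⊢
  intro y V al s lam η hkw hal T hT u hu m hm
  obtain ⟨hw, hap⟩ := h1 y V al s lam η hkw
  have hy := hkw.y0
  have hn1' : (1 : ℝ) ≤ n := by exact_mod_cast hn1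
  refine br_kw hw (by linarith) (by linarith) hap (X3 := Ca * y ^ 2) ?_ (by positivity) hal ?_ ?_
    hT.2 hu.1 hu.2 hm
  · have h2 : (n : ℝ) ^ (-(8 * q)) ≤ 1 :=
      Real.rpow_le_one_of_one_le_of_nonpos hn1' (by linarith)
    have h3 : (n : ℝ) ^ (-(8 * q)) * y ≤ 1 * y := mul_le_mul_of_nonneg_right h2 hy.le
    have h4 : 1 * y ≤ 384 * Ca * y := mul_le_mul_of_nonneg_right (by linarith) hy.le
    exact h3.trans h4
  · exact le_of_eq (by ring)
  · have h5 := hT.1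
    unfold H122.T1 at h5
    unfold BC.tB
    linarith

end Vale.Agent.P146.S3
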